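import Vale.Agent.P247F.Mv
import Vale.Agent.P247X.Spec

/-!
# P247, block F: continuous paths are chains of moves
-/

set_option linter.all false

open scoped BigOperators ContDiff Topology Manifold
open Set Filter

namespace Vale.Agent.P247F
open Vale.Agent.P204.T4 (Q continuous_Q det4)
open Vale.Agent.P204.Mfd (Tames EndField cE)
open Vale.Agent.P247.SCY Vale.Agent.P247.SCY.HS
open Vale.Agent.P247X (Cl4 Cont)

theorem posDef_eventually {P K : Type*} [TopologicalSpace P] [TopologicalSpace K] [CompactSpace K]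
    {F : P × K → Matrix (Fin 3) (Fin 3) ℝ} (hF : ∀ i j, Continuous fun z => F z i j)
    (hH : ∀ z, (F z).IsHermitian) {p0 : P} (h : ∀ k, (F (p0, k)).PosDef) :
    ∀ᶠ p in 𝓝 p0, ∀ k, (F (p, k)).PosDef := by
  set g : P × (K × (Fin 3 → ℝ)) → ℝ := fun z => star z.2.2 ⬝ᵥ (F (z.1, z.2.1)).mulVec z.2.2 with hg
  have hgc : Continuous g := by
    simp only [hg, dotProduct, Matrix.mulVec, star_trivial]
    refine continuous_finset_sum _ fun i _ => Continuous.mul (by fun_prop) ?_
    refine continuous_finset_sum _ fun j _ => Continuous.mul ?_ (by fun_prop)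
    exact (hF i j).comp (by fun_prop)
  have hK : IsCompact ((univ : Set K) ×ˢ Metric.sphere (0 : Fin 3 → ℝ) 1) :=
    isCompact_univ.prod (isCompact_sphere _ _)
  have h1 := hK.eventually_forall_of_forall_eventually (x₀ := p0)
    (P := fun p y => 0 < g (p, y)) (fun y hy => by
      have hy0 : y.2 ≠ 0 := by
        intro h0
        have := hy.2
        rw [h0] at this
        simp at this
      have : 0 < g (p0, y) := (h y.1).dotProduct_mulVec_pos hy0
      exact hgc.continuousAt.eventually (lt_mem_nhds this))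
  filter_upwards [h1] with p hp k
  refine Matrix.PosDef.of_dotProduct_mulVec_pos (hH _) fun v hv => ?_
  have hn : 0 < ‖v‖ := norm_pos_iff.2 hv
  have h2 := hp (k, ‖v‖⁻¹ • v) ⟨mem_univ _, by
    simp [norm_smul, inv_mul_cancel₀ hn.ne']⟩
  simp only [hg, star_trivial, Matrix.mulVec_smul, dotProduct_smul, smul_dotProduct,
    smul_eq_mul] at h2 ⊢
  have h3 : 0 < ‖v‖⁻¹ := inv_pos.2 hn
  exact (pos_iff_pos_of_mul_pos ((pos_iff_pos_of_mul_pos h2).1 h3)).1 h3

section
variable {X : Type} [TopologicalSpace X] [ChartedSpace E4 X] {μ : Form X 4}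
variable {P P' : Type*} [TopologicalSpace P] [TopologicalSpace P']

/-- continuous families of forms -/
def FamC (A : P → Form X 2) : Prop := ∀ e ∈ atlas E4 X,
  ContinuousOn (fun p : P × E4 => loc e (A p.1) p.2) (univ ×ˢ e.target)

theorem cont_of_smooth {k : ℕ} {α : Form X k} (h : Smooth α) : Cont α :=
  fun e he => (h e he).continuousOn

theorem famC_const {α : Form X 2} (h : Cont α) : FamC fun _ : P => α :=
  fun e he => (h e he).comp continuous_snd.continuousOn fun p hp => hp.2

theorem FamC.comp {A : P → Form X 2} (h : FamC A) {f : P' → P} (hf : Continuous f) :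
    FamC fun p => A (f p) := fun e he =>
  (h e he).comp (f := fun p : P' × E4 => (f p.1, p.2)) (by fun_prop) fun p hp => ⟨mem_univ _, hp.2⟩

theorem FamC.add {A B : P → Form X 2} (h : FamC A) (h' : FamC B) :
    FamC fun p x => A p x + B p x := by
  intro e he
  have e1 : (fun p : P × E4 => loc e (fun x => A p.1 x + B p.1 x) p.2) =
      fun p => loc e (A p.1) p.2 + loc e (B p.1) p.2 :=
    funext fun p => congrFun (loc_add' e (A p.1) (B p.1)) p.2
  rw [e1]
  exact (h e he).add (h' e he)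

theorem FamC.smul {A : P → Form X 2} (h : FamC A) {c : P → ℝ} (hc : Continuous c) :
    FamC fun p x => c p • A p x := by
  intro e he
  have e1 : (fun p : P × E4 => loc e (fun x => c p.1 • A p.1 x) p.2) =
      fun p => c p.1 • loc e (A p.1) p.2 :=
    funext fun p => congrFun (loc_smul' e (c p.1) (A p.1)) p.2
  rw [e1]
  exact (hc.comp continuous_fst).continuousOn.smul (h e he)

theorem FamC.seg {A B : P → Form X 2} (h : FamC A) (h' : FamC B) {c : P → ℝ}
    (hc : Continuous c) : FamC fun p x => A p x + c p • (B p x - A p x) := by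
  have e : (fun p x => A p x + c p • (B p x - A p x)) =
      fun p x => (1 - c p) • A p x + c p • B p x := by
    funext p x; module
  rw [e]
  exact (h.smul (c := fun p => 1 - c p) (by fun_prop)).add (h'.smul hc)

variable [IsManifold (𝓡 4) ∞ X]

theorem ax_ne (hμ : Volume μ) (x : X) : ax μ x bas ≠ 0 := by
  intro h
  apply hμ.ne_zero x
  have h2 := AlternatingMap.eq_smul_basis_det bE (ax μ x).toAlternatingMap
  have h4 : (fun i => bE i) = bas := funext bE_apply
  have h5 : (ax μ x).toAlternatingMap (⇑bE) = 0 := by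
    rw [show (⇑bE : Fin 4 → E4) = bas from h4]; exact h
  rw [h5, zero_smul] at h2
  have h6 : ax μ x = 0 := by
    ext v
    exact congrArg (fun f => f v) h2
  exact h6

theorem loc_vol_ne (hμ : Volume μ) {e : OpenPartialHomeomorph X E4} (he : e ∈ atlas E4 X) {y : E4}
    (hy : y ∈ e.target) : loc e μ y bas ≠ 0 := by
  have h1 : loc e μ y bas = det4 (mat (P204.Mfd.dsym e y)) * ax μ (e.symm y) bas :=
    top_compE (ax μ (e.symm y)) (P204.Mfd.dsym e y)
  rw [h1]
  exact mul_ne_zero (mat_dsym he hy).2.2 (ax_ne hμ _)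

theorem continuous_quot_fam (hμ : Volume μ) {A B : P → Form X 2} (hA : FamC A) (hB : FamC B) :
    Continuous fun p : P × X => quot μ (A p.1) (B p.1) p.2 := by
  rw [continuous_iff_continuousAt]
  rintro ⟨p0, x0⟩
  set e := chartAt E4 x0 with he
  have hea : e ∈ atlas E4 X := chart_mem_atlas E4 x0
  have hx0 : x0 ∈ e.source := mem_chart_source E4 x0
  set G : P × E4 → ℝ := fun p =>
    Q (cE (loc e (A p.1) p.2)) (cE (loc e (B p.1) p.2)) / loc e μ p.2 bas with hG
  have hGc : ContinuousOn G (univ ×ˢ e.target) := by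
    have a1 : ContinuousOn (fun p : P × E4 => cE (loc e (A p.1) p.2)) (univ ×ˢ e.target) :=
      cE.continuous.comp_continuousOn (hA e hea)
    have a2 : ContinuousOn (fun p : P × E4 => cE (loc e (B p.1) p.2)) (univ ×ˢ e.target) :=
      cE.continuous.comp_continuousOn (hB e hea)
    have a3 : ContinuousOn (fun p : P × E4 => Q (cE (loc e (A p.1) p.2)) (cE (loc e (B p.1) p.2)))
        (univ ×ˢ e.target) :=
      continuous_Q.comp_continuousOn (f := fun p : P × E4 =>
        (cE (loc e (A p.1) p.2), cE (loc e (B p.1) p.2))) (a1.prodMk a2)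
    have a4 : ContinuousOn (fun p : P × E4 => loc e μ p.2) (univ ×ˢ e.target) :=
      (hμ.smooth e hea).continuousOn.comp continuous_snd.continuousOn fun p hp => hp.2
    have a5 : ContinuousOn (fun p : P × E4 => loc e μ p.2 bas) (univ ×ˢ e.target) :=
      (ContinuousAlternatingMap.apply ℝ E4 ℝ bas).continuous.comp_continuousOn
        (f := fun p : P × E4 => loc e μ p.2) a4
    exact a3.div a5 fun p hp => loc_vol_ne hμ hea hp.2
  have h1 : ContinuousAt G (p0, e x0) :=
    hGc.continuousAt ((isOpen_univ.prod e.open_target).mem_nhds ⟨mem_univ _, e.map_source hx0⟩)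
  have h2 : ContinuousAt (fun p : P × X => (p.1, e p.2)) (p0, x0) :=
    continuousAt_fst.prodMk ((e.continuousAt hx0).comp continuousAt_snd)
  refine (ContinuousAt.comp (f := fun p : P × X => (p.1, e p.2)) h1 h2).congr ?_
  have h3 : ∀ᶠ p : P × X in 𝓝 (p0, x0), p.2 ∈ e.source :=
    continuousAt_snd.eventually (e.open_source.mem_nhds hx0)
  filter_upwards [h3] with p hp
  have := quot_loc μ (A p.1) (B p.1) hea (e.map_source hp)
  rw [e.left_inv hp] at this
  exact this.symm

variable [CompactSpace X]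

theorem qm_eventually (hμ : Volume μ) {K : Type*} [TopologicalSpace K] [CompactSpace K]
    {W : P × K → Fin 3 → Form X 2} (hW : ∀ i, FamC fun z => W z i) {p0 : P}
    (h : ∀ k x, (Qm μ (W (p0, k)) x).PosDef) :
    ∀ᶠ p in 𝓝 p0, ∀ k x, (Qm μ (W (p, k)) x).PosDef := by
  have h1 := posDef_eventually (K := K × X) (F := fun z => Qm μ (W (z.1, z.2.1)) z.2.2)
    (fun i j => ((continuous_quot_fam hμ (hW i) (hW j)).comp
      (f := fun z : P × K × X => ((z.1, z.2.1), z.2.2)) (by fun_prop)).div_const 2)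
    (fun z => qm_hermitian _ _ _) (p0 := p0) fun k => h k.1 k.2
  filter_upwards [h1] with p hp k x
  exact hp (k, x)

/-- slotwise interpolation -/
noncomputable def mix (a b : Fin 3 → Form X 2) (l : Fin 3 → ℝ) : Fin 3 → Form X 2 :=
  fun i x => a i x + l i • (b i x - a i x)

omit [IsManifold (𝓡 4) ∞ X] [CompactSpace X] in
theorem ch_of_cube {a b : Fin 3 → Form X 2} (ha : Hypersymplectic μ a) (hb : Hypersymplectic μ b)
    (h : ∀ l : Fin 3 → ℝ, (∀ i, l i ∈ Icc (0 : ℝ) 1) → ∀ x, (Qm μ (mix a b l) x).PosDef) :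
    Ch μ a b := by
  have hy : ∀ l : Fin 3 → ℝ, (∀ i, l i ∈ Icc (0 : ℝ) 1) → Hypersymplectic μ (mix a b l) :=
    fun l hl => ⟨fun i => smooth_seg (ha.smooth i) (hb.smooth i) _, fun i =>
      closed_seg (ha.smooth i) (hb.smooth i) (ha.closed i) (hb.closed i) _, h l hl⟩
  have mv : ∀ (l l' : Fin 3 → ℝ) (k : Fin 3), (∀ i, l i ∈ Icc (0 : ℝ) 1) →
      (∀ i, l' i ∈ Icc (0 : ℝ) 1) → (∀ j, j ≠ k → l' j = l j) → Mv μ (mix a b l) (mix a b l') := by
    intro l l' k hl hl' hk
    refine ⟨k, ⟨hy l hl, hy l' hl', fun s hs x => ?_⟩, fun j hj => ?_⟩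
    · have e : lin (mix a b l) (mix a b l') s = mix a b fun i => l i + s * (l' i - l i) := by
        funext i x
        simp only [lin, mix]
        module
      rw [e]
      refine h _ (fun i => ⟨?_, ?_⟩) x
      · nlinarith [(hl i).1, (hl' i).1, hs.1, hs.2, mul_nonneg hs.1 (hl' i).1,
          mul_nonneg (sub_nonneg.2 hs.2) (hl i).1]
      · nlinarith [(hl i).2, (hl' i).2, hs.1, hs.2, mul_nonneg hs.1 (sub_nonneg.2 (hl' i).2),
          mul_nonneg (sub_nonneg.2 hs.2) (sub_nonneg.2 (hl i).2)]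
    · funext x
      simp only [mix, hk j hj]
  have e0 : mix a b ![0, 0, 0] = a := by
    funext i x; fin_cases i <;> simp [mix]
  have e1 : mix a b ![1, 1, 1] = b := by
    funext i x; fin_cases i <;> simp [mix]
  have m : ∀ p q r : ℝ, p ∈ Icc (0 : ℝ) 1 → q ∈ Icc (0 : ℝ) 1 → r ∈ Icc (0 : ℝ) 1 →
      ∀ i, (![p, q, r] : Fin 3 → ℝ) i ∈ Icc (0 : ℝ) 1 := by
    intro p q r hp hq hr i
    fin_cases i
    · exact hp
    · exact hq
    · exact hr
  have z : (0 : ℝ) ∈ Icc (0 : ℝ) 1 := by simp
  have o : (1 : ℝ) ∈ Icc (0 : ℝ) 1 := by simp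
  have s1 := mv ![0, 0, 0] ![1, 0, 0] 0 (m _ _ _ z z z) (m _ _ _ o z z) (fun j hj => by
    fin_cases j <;> first | rfl | exact absurd rfl hj)
  have s2 := mv ![1, 0, 0] ![1, 1, 0] 1 (m _ _ _ o z z) (m _ _ _ o o z) (fun j hj => by
    fin_cases j <;> first | rfl | exact absurd rfl hj)
  have s3 := mv ![1, 1, 0] ![1, 1, 1] 2 (m _ _ _ o o z) (m _ _ _ o o o) (fun j hj => by
    fin_cases j <;> first | rfl | exact absurd rfl hj)
  rw [e0] at s1
  rw [e1] at s3
  exact ((Relation.ReflTransGen.single s1).tail s2).tail s3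

/-- continuous families over a connected space -/
theorem ch_of_fam (hμ : Volume μ) [PreconnectedSpace P] {W : P → Fin 3 → Form X 2}
    (hW : ∀ i, FamC fun p => W p i) (hy : ∀ p, Hypersymplectic μ (W p)) (p q : P) :
    Ch μ (W p) (W q) := by
  refine PreconnectedSpace.induction₂' (fun p q => Ch μ (W p) (W q)) (fun s => ?_)
    ⟨fun _ _ _ h h' => h.trans h'⟩ p q
  have h1 := qm_eventually hμ (K := Fin 3 → Icc (0 : ℝ) 1)
    (W := fun z => mix (W s) (W z.1) fun i => (z.2 i : ℝ)) (fun i =>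
      FamC.seg (famC_const (cont_of_smooth ((hy s).smooth i))) ((hW i).comp continuous_fst)
        (c := fun z : P × (Fin 3 → Icc (0 : ℝ) 1) => (z.2 i : ℝ)) (by fun_prop)) (p0 := s)
    (fun k x => by
      have : (mix (W s) (W s) fun i => (k i : ℝ)) = W s := by
        funext i x; simp only [mix, sub_self, smul_zero, add_zero]
      simp only [this]
      exact (hy s).posDef x)
  filter_upwards [h1] with t ht
  have h2 : Ch μ (W s) (W t) := ch_of_cube (hy s) (hy t) fun l hl x => ht (fun i => ⟨l i, hl i⟩) x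
  exact ⟨h2, h2.symm⟩

theorem famC_lin {w v : Fin 3 → Form X 2} (hw : Hypersymplectic μ w) (hv : Hypersymplectic μ v)
    (i : Fin 3) : FamC fun s : ℝ => lin w v s i :=
  FamC.seg (famC_const (cont_of_smooth (hw.smooth i))) (famC_const (cont_of_smooth (hv.smooth i)))
    continuous_id

theorem Seg.ch (hμ : Volume μ) {w v : Fin 3 → Form X 2} (h : Seg μ w v) : Ch μ w v := by
  haveI : PreconnectedSpace (Icc (0 : ℝ) 1) := Subtype.preconnectedSpace isPreconnected_Icc
  have := ch_of_fam hμ (P := Icc (0 : ℝ) 1) (W := fun s => lin w v s)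
    (fun i => (famC_lin h.hw h.hv i).comp continuous_subtype_val) (fun s => h.hyper s.2)
    ⟨0, by simp⟩ ⟨1, by simp⟩
  simpa only [lin_zero, lin_one] using this

theorem CPath.ch (hμ : Volume μ) {W : ℝ → Fin 3 → Form X 2} (h : CPath μ W) :
    Ch μ (W 0) (W 1) := by
  haveI : PreconnectedSpace (Icc (0 : ℝ) 1) := Subtype.preconnectedSpace isPreconnected_Icc
  exact ch_of_fam hμ (P := Icc (0 : ℝ) 1) (W := fun s => W s)
    (fun i e he => (h.cont i e he).comp (f := fun p : Icc (0 : ℝ) 1 × E4 => ((p.1 : ℝ), p.2))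
      (by fun_prop) fun p hp => ⟨p.1.2, hp.2⟩) (fun s => h.hyper s s.2)
    ⟨0, by simp⟩ ⟨1, by simp⟩

end

theorem chain : P247X.CHAIN_statement := fun _ _ _ hμ =>
  ⟨fun _ _ h => h.ch hμ, fun _ h => h.ch hμ, fun _ _ h => Ch.symm h⟩

end Vale.Agent.P247F
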