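import Vale.Agent.P247F.Defs
import Vale.Agent.P247.SCY.EXM3

/-!
# P247, block F: taming forms and definite triples
-/

set_option linter.all false

open scoped BigOperators ContDiff Topology Manifold
open Set

namespace Vale.Agent.P247F
open Vale.Agent.P204.T4 Vale.Agent.P204.Mfd Vale.Agent.P247.SCY

theorem ker_of_Q {W : L2} (h : Q W W = 0) : ∃ v : V4, v ≠ 0 ∧ ∀ w, ev W v w = 0 := by
  have hP : W 0 * W 5 - W 1 * W 4 + W 2 * W 3 = 0 := by
    have : Q W W = 2 * (W 0 * W 5 - W 1 * W 4 + W 2 * W 3) := by simp only [Q]; ring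
    linarith
  by_contra hcon
  push Not at hcon
  have key : ∀ v : V4, (∀ w, ev W v w = 0) → v = 0 := by
    intro v hv
    by_contra hne
    obtain ⟨w, hw⟩ := hcon v hne
    exact hw (hv w)
  have h0 := key ![0, W 5, -W 4, W 3] (fun w => by
    simp only [ev_eq, Matrix.cons_val_zero, Matrix.cons_val_one, Matrix.cons_val]
    linear_combination (-(w 0)) * hP)
  have h1 := key ![W 5, 0, -W 2, W 1] (fun w => by
    simp only [ev_eq, Matrix.cons_val_zero, Matrix.cons_val_one, Matrix.cons_val]
    linear_combination (w 1) * hP)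
  have h2 := key ![W 4, -W 2, 0, W 0] (fun w => by
    simp only [ev_eq, Matrix.cons_val_zero, Matrix.cons_val_one, Matrix.cons_val]
    linear_combination (-(w 2)) * hP)
  have e5 : W 5 = 0 := by simpa using congrFun h0 1
  have e4 : W 4 = 0 := by simpa using congrFun h0 2
  have e3 : W 3 = 0 := by simpa using congrFun h0 3
  have e2 : W 2 = 0 := by simpa using congrFun h1 2
  have e1 : W 1 = 0 := by simpa using congrFun h1 3
  have e0 : W 0 = 0 := by simpa using congrFun h2 3
  have := key (eb 0) (fun w => by simp only [ev_eq, e0, e1, e2, e3, e4, e5]; ring)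
  exact eb0_ne this

theorem Q_ne_of_tame {J : M4} {W : L2} (h : ∀ v, v ≠ 0 → ev W v (app J v) ≠ 0) : Q W W ≠ 0 := by
  intro h0
  obtain ⟨v, hv, hw⟩ := ker_of_Q h0
  exact h v hv (hw _)

/-- a continuous function without zero on `[0, 1]` keeps its sign -/
theorem pos_of_ne {f : ℝ → ℝ} (hf : ContinuousOn f (Icc 0 1)) (h : ∀ r ∈ Icc (0 : ℝ) 1, f r ≠ 0)
    (h0 : 0 < f 0) : 0 < f 1 := by
  by_contra hcon
  push Not at hcon
  have := intermediate_value_Icc' (zero_le_one' ℝ) hf
  obtain ⟨r, hr, hr0⟩ := this ⟨hcon, h0.le⟩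
  exact h r hr hr0

theorem def3_of_tame {s : ℝ} {A B C A' : L2} (h : Def3 s A B C)
    (hA' : ∀ v, v ≠ 0 → 0 < ev A' v (app (tam A B C) v)) : Def3 s A' B C := by
  intro a b c habc
  by_cases ha : a = 0
  · have := h a b c habc
    rw [ha, zero_smul] at this ⊢
    exact this
  have hcx := isCx_tam h
  set f : ℝ → ℝ := fun r => s * Q (a • (A + r • (A' - A)) + b • B + c • C)
    (a • (A + r • (A' - A)) + b • B + c • C) with hf
  have hs : s ≠ 0 := by
    intro h0
    have := h a b c habc
    rw [h0, zero_mul] at this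
    exact lt_irrefl _ this
  have key : 0 < f 1 := by
    apply pos_of_ne
    · apply Continuous.continuousOn
      rw [hf]
      simp only [Q, Pi.add_apply, Pi.smul_apply, Pi.sub_apply, smul_eq_mul]
      fun_prop
    · intro r hr
      refine mul_ne_zero hs (Q_ne_of_tame (J := tam A B C) fun v hv => ?_)
      rw [ev_add, ev_add, ev_smul, ev_smul, ev_smul, ev_anti hcx (pull_tam_B h),
        ev_anti hcx (pull_tam_C h), ev_add, ev_smul, ev_sub]
      have h1 := hA' v hv
      have h2 := tam_pos h hv
      have h3 : 0 < ev A v (app (tam A B C) v) +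
          r * (ev A' v (app (tam A B C) v) - ev A v (app (tam A B C) v)) := by
        rcases eq_or_lt_of_le hr.1 with h4 | h4
        · rw [← h4]; linarith
        · nlinarith [hr.2, mul_pos h4 h1, mul_nonneg (sub_nonneg.2 hr.2) h2.le]
      simp only [mul_zero, add_zero]
      exact mul_ne_zero ha h3.ne'
    · simp only [hf, zero_smul, add_zero]
      exact h a b c habc
  simpa only [hf, one_smul, add_sub_cancel] using key

theorem tam_eq_of_tame {s : ℝ} {A B C A' : L2} (h : Def3 s A B C)
    (hA' : ∀ v, v ≠ 0 → 0 < ev A' v (app (tam A B C) v)) : tam A' B C = tam A B C := by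
  have h' := def3_of_tame h hA'
  have h1 := hA' _ eb0_ne
  have h2 := tam_pos h' eb0_ne
  unfold tam at h1 h2 ⊢
  rw [app_smulM, ev_smul_right] at h1 h2
  have h3 : sg A' B C = sg A B C := by
    have e1 := sg_sq A B C
    have e2 := sg_sq A' B C
    have h4 : 0 < sg A B C * sg A' B C * (ev A' (eb 0) (app (Jm B C) (eb 0))) ^ 2 := by
      have := mul_pos h1 h2
      nlinarith
    have h5 : 0 < sg A B C * sg A' B C := by
      by_contra hcon
      push Not at hcon
      have := mul_nonpos_of_nonpos_of_nonneg hcon (sq_nonneg (ev A' (eb 0) (app (Jm B C) (eb 0))))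
      linarith
    have h6 : (sg A B C - sg A' B C) * (sg A B C + sg A' B C) = 0 := by linear_combination e1 - e2
    rcases mul_eq_zero.1 h6 with h7 | h7
    · linarith
    · have : sg A' B C = -sg A B C := by linarith
      rw [this] at h5
      nlinarith
  rw [h3]

theorem tame_of_seg {s : ℝ} {A B C A' : L2}
    (h : ∀ r ∈ Icc (0 : ℝ) 1, Def3 s (A + r • (A' - A)) B C) (v : V4) (hv : v ≠ 0) :
    0 < ev A' v (app (tam A B C) v) := by
  have h0 : Def3 s A B C := by simpa using h 0 (by simp)
  set f : ℝ → ℝ := fun r => ev (A + r • (A' - A)) v (app (tam A B C) v) with hf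
  have key : 0 < f 1 := by
    apply pos_of_ne
    · apply Continuous.continuousOn
      rw [hf]
      simp only [ev_add, ev_smul]
      fun_prop
    · intro r hr
      have h1 := tam_pos (h r hr) hv
      simp only [hf]
      unfold tam at h1 ⊢
      rw [app_smulM, ev_smul_right] at h1 ⊢
      refine mul_ne_zero ?_ ?_
      · intro h2
        have := sg_sq A B C
        rw [h2, zero_mul] at this
        exact zero_ne_one this
      · intro h2
        rw [h2, mul_zero] at h1
        exact lt_irrefl _ h1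
    · simp only [hf, zero_smul, add_zero]
      exact tam_pos h0 hv
  simpa only [hf, one_smul, add_sub_cancel] using key

section
variable {X : Type} [TopologicalSpace X] [ChartedSpace E4 X]

theorem triPos_iff {μ : HS.Form X 4} {α β γ : HS.Form X 2} :
    TriPos μ α β γ ↔ ∀ x, Def3 (ax μ x HS.bas)⁻¹ (cx α x) (cx β x) (cx γ x) := by
  refine forall_congr' fun x => forall_congr' fun a => forall_congr' fun b =>
    forall_congr' fun c => forall_congr' fun _ => ?_
  rw [Q_comb]
  simp only [quot_cx]
  constructor <;> intro h <;> linarith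

theorem tames_iff {α α' β γ : HS.Form X 2} :
    Tames α' (Jf α β γ) ↔
      ∀ x v, v ≠ 0 → 0 < ev (cx α' x) v (app (tam (cx α x) (cx β x) (cx γ x)) v) := by
  constructor
  · intro h x v hv
    have h1 : 0 < omv α' x (toE v) (Jat (Jf α β γ) x (toE v)) :=
      h x (toE v : E4) (fun h0 => hv (by
        have h2 : (toE v : E4) = 0 := h0
        simpa using h2))
    rwa [omv_eq, Jat_Jf, toE.symm_apply_apply, toE.symm_apply_apply] at h1
  · intro h
    have key : ∀ x (v : E4), v ≠ 0 → 0 < omv α' x v (Jat (Jf α β γ) x v) := by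
      intro x v hv
      rw [omv_eq, Jat_Jf, toE.symm_apply_apply]
      apply h
      intro h0
      apply hv
      have : v = toE (toE.symm v) := (toE.apply_symm_apply _).symm
      rw [this, h0, map_zero]
    exact fun x v hv => key x v hv

theorem triPos_of_tames {μ : HS.Form X 4} {α α' β γ : HS.Form X 2} (h : TriPos μ α β γ)
    (hT : Tames α' (Jf α β γ)) : TriPos μ α' β γ :=
  triPos_iff.2 fun x => def3_of_tame (triPos_iff.1 h x) (tames_iff.1 hT x)

theorem Jf_eq_of_tames {μ : HS.Form X 4} {α α' β γ : HS.Form X 2} (h : TriPos μ α β γ)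
    (hT : Tames α' (Jf α β γ)) : Jf α' β γ = Jf α β γ := by
  funext x
  unfold Jf
  rw [tam_eq_of_tame (triPos_iff.1 h x) (tames_iff.1 hT x)]

theorem cx_sub (α β : HS.Form X 2) (x : X) : cx (fun x => α x - β x) x = cx α x - cx β x := by
  unfold cx
  exact map_sub cE _ _

theorem cx_lin (α α' : HS.Form X 2) (r : ℝ) (x : X) :
    cx (fun x => α x + r • (α' x - α x)) x = cx α x + r • (cx α' x - cx α x) := by
  rw [cx_add α (fun x => r • (α' x - α x)), cx_smul r (fun x => α' x - α x), cx_sub]

theorem tames_of_seg {μ : HS.Form X 4} {α α' β γ : HS.Form X 2}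
    (h : ∀ r ∈ Icc (0 : ℝ) 1, TriPos μ (fun x => α x + r • (α' x - α x)) β γ) :
    Tames α' (Jf α β γ) := by
  refine tames_iff.2 fun x v hv => tame_of_seg (s := (ax μ x HS.bas)⁻¹) (fun r hr => ?_) v hv
  have := triPos_iff.1 (h r hr) x
  rwa [cx_lin] at this

theorem tames_lin {α α' : HS.Form X 2} {J : EndField X} (h : Tames α J) (h' : Tames α' J) {r : ℝ}
    (hr : r ∈ Icc (0 : ℝ) 1) : Tames (fun x => α x + r • (α' x - α x)) J := by
  intro x v hv
  have h1 := h x v hv
  have h2 := h' x v hv
  show 0 < α x ![v, J x v] + r * (α' x ![v, J x v] - α x ![v, J x v])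
  rcases eq_or_lt_of_le hr.1 with h4 | h4
  · rw [← h4]; linarith
  · nlinarith [hr.2, mul_pos h4 h2, mul_nonneg (sub_nonneg.2 hr.2) h1.le]

theorem seg_of_tames {μ : HS.Form X 4} {α α' β γ : HS.Form X 2} (h : TriPos μ α β γ)
    (hT : Tames α' (Jf α β γ)) {r : ℝ} (hr : r ∈ Icc (0 : ℝ) 1) :
    TriPos μ (fun x => α x + r • (α' x - α x)) β γ :=
  triPos_of_tames h (tames_lin (Jf_tames (defAt_of_triPos h)) hT hr)

end

end Vale.Agent.P247F
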