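import Vale.Agent.P247F.NM

/-!
# P247, block F: chambers
-/

set_option linter.all false

open scoped BigOperators ContDiff Topology Manifold
open Set Filter MeasureTheory

namespace Vale.Agent.P247F
open Vale.Agent.P204.Mfd hiding bil
open Vale.Agent.P247.SCY Vale.Agent.P247.SCY.HS
open Vale.Agent.P247X hiding Coh IntPair
open Vale.Agent.P290.H726
open Vale.Agent.P290Z.Lat (IsK3L cs)

section
variable {X : Type} [Cl4 X] {μ : Form X 4}

theorem sph_cls (irr : IRR_statement) (emb : EMB_statement) (hμ : Volume μ)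
    {w : Fin 3 → Form X 2} (hw : Hypersymplectic μ w) (M : Marking μ)
    {k : Fin 3 → Fin 22 → ℝ} (hk : M.Rep w k) (S : Sph (Jw w)) {ρ : Fin 22 → ℝ}
    (h : IsCls μ S.int (lc M.c ρ)) :
    bil M.G ρ (k 0) = 0 ∧ bil M.G ρ (k 1) = 0 ∧ 0 < bil M.G ρ (k 2) := by
  obtain ⟨K, -, -, hK⟩ := (emb X μ hμ w hw).1 S
  obtain ⟨k1, k2, -⟩ := irr X μ hμ w hw K
  have e : ∀ j, bil M.G ρ (k j) = K.T (w j) := fun j => by
    rw [hK _ (cont_of_smooth (hw.smooth j)), h.2 _ ⟨hw.smooth j, hw.closed j⟩,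
      pair_lc_coh hμ hw M _ _ (hw.smooth j) (hk j)]
  rw [e, e, e]
  exact ⟨pcur_anti hw k1 0 (by decide), pcur_anti hw k1 1 (by decide), k2⟩

theorem mvAt_of_move {w : Fin 3 → Form X 2} {τ : Form X 2} (h : Move μ w ![w 0, w 1, τ]) :
    MvAt μ 2 w ![w 0, w 1, τ] := by
  obtain ⟨k, hk, -⟩ := h
  refine ⟨hk, fun j hj => ?_⟩
  fin_cases j
  · rfl
  · rfl
  · exact absurd rfl hj

/-- lifting of a move of periods, in the same slot -/
theorem ch1_at (nm : NM_statement) (irr : IRR_statement) (emb : EMB_statement) (h0 : Top0 μ)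
    (M : Marking μ) {w : Fin 3 → Form X 2} (hw : Hypersymplectic μ w)
    {a a' : Fin 3 → Fin 22 → ℝ} (ha : M.Rep w a) (i : Fin 3) (h1 : ∀ j, j ≠ i → a' j = a j)
    (h2 : ∀ s ∈ Icc (0 : ℝ) 1, PosT M.G fun j => (1 - s) • a j + s • a' j)
    (h3 : ∀ ρ, Root M.G ρ → (∀ j, j ≠ i → bil M.G (cs ℝ ρ) (a j) = 0) →
      0 < bil M.G (cs ℝ ρ) (a i) → 0 < bil M.G (cs ℝ ρ) (a' i)) :
    ∃ w', MvAt μ i w w' ∧ M.Rep w' a' := by
  set σ : Equiv.Perm (Fin 3) := Equiv.swap i 2 with hσ
  have e2 : σ 2 = i := by simp [hσ]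
  have e0 : σ 0 ≠ i := by rw [← e2]; exact σ.injective.ne (by decide)
  have e1 : σ 1 ≠ i := by rw [← e2]; exact σ.injective.ne (by decide)
  have hw' := hyper_perm σ hw
  have ha' : M.Rep (fun j => w (σ j)) (fun j => a (σ j)) := fun j => ha (σ j)
  rcases nm X μ h0 M _ hw' _ ha' (a' i) (fun s hs => by
    have h4 := (h2 s hs).submatrix σ.injective
    have e : (![a (σ 0), a (σ 1), (1 - s) • a (σ 2) + s • a' i] : Fin 3 → Fin 22 → ℝ) =
        fun j => (1 - s) • a (σ j) + s • a' (σ j) := by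
      funext j
      fin_cases j
      · show a (σ 0) = (1 - s) • a (σ 0) + s • a' (σ 0)
        rw [h1 _ e0]; module
      · show a (σ 1) = (1 - s) • a (σ 1) + s • a' (σ 1)
        rw [h1 _ e1]; module
      · show (1 - s) • a (σ 2) + s • a' i = (1 - s) • a (σ 2) + s • a' (σ 2)
        rw [e2]
    show PosT M.G ![a (σ 0), a (σ 1), (1 - s) • a (σ 2) + s • a' i]
    rw [e]
    exact h4) with ⟨τ, c, m⟩ | ⟨S, ρ, r1, r2, r3⟩
  · have h5 := (mvAt_of_move m).of_perm σ
    rw [e2] at h5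
    refine ⟨_, h5, fun j => ?_⟩
    by_cases hj : j = i
    · have : σ.symm j = 2 := by rw [hj, ← e2, Equiv.symm_apply_apply]
      show P247X.Coh (![w (σ 0), w (σ 1), τ] (σ.symm j)) (lc M.c (a' j))
      rw [this, hj]
      exact c
    · have h6 := h5.2 j hj
      simp only at h6 ⊢
      rw [h6, h1 j hj]
      exact ha j
  · exfalso
    obtain ⟨s0, s1, s2⟩ := sph_cls irr emb h0.vol hw' M ha' S r2
    have := h3 ρ r1 (fun j hj => by
      obtain ⟨l, rfl⟩ := σ.surjective j
      fin_cases l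
      · exact s0
      · exact s1
      · exact absurd e2 hj) (by rw [← e2]; exact s2)
    linarith

end

theorem ch1 (nm : NM_statement) (irr : IRR_statement) (emb : EMB_statement) : CH1_statement := by
  intro X _ μ h0 M w hw a a' ha ⟨i, h1, h2, h3⟩
  obtain ⟨w', h4, h5⟩ := ch1_at nm irr emb h0 M hw ha i h1 h2 h3
  exact ⟨w', ⟨i, h4⟩, h5⟩

/-- no root is orthogonal to the three periods -/
theorem no_root (root : ROOT_statement) {X : Type} [Cl4 X] {μ : Form X 4} (h0 : Top0 μ)
    (M : Marking μ) {w : Fin 3 → Form X 2} (hw : Hypersymplectic μ w)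
    {a : Fin 3 → Fin 22 → ℝ} (ha : M.Rep w a) {ρ : Fin 22 → ℤ} (hρ : Root M.G ρ) :
    ∃ i, bil M.G (cs ℝ ρ) (a i) ≠ 0 := by
  by_contra hcon
  push Not at hcon
  obtain ⟨L, hL⟩ := M.int ρ
  refine root X μ h0 w hw L (fun i => ?_) ?_
  · rw [hL, pair_lc_coh h0.vol hw M _ _ (hw.smooth i) (ha i), hcon]
  · rw [hL, pair_lc h0.vol hw]
    have : bil M.G (cs ℝ ρ) (cs ℝ ρ) = ((bil M.G ρ ρ : ℤ) : ℝ) := bil_intCast_real _ _ _
    rw [this, hρ]
    norm_num

theorem ch2 (root : ROOT_statement) (nm : NM_statement) (irr : IRR_statement)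
    (emb : EMB_statement) : CH2_statement := by
  intro X _ μ h0 M w hw k r hk ⟨r1, r2, r3, a, a1, a2, a3⟩
  rcases nm X μ h0 M w hw k hk a a1 with ⟨τ, c, m⟩ | ⟨S, ρ, s1, s2, s3⟩
  · exfalso
    obtain ⟨i, hi⟩ := no_root root h0 M (mvAt_of_move m).1.hv (a := ![k 0, k 1, a]) (fun j => by
      fin_cases j
      · exact hk 0
      · exact hk 1
      · exact c) r1
    fin_cases i
    · exact hi r2
    · exact hi r3
    · exact hi a2
  · obtain ⟨t0, t1, t2⟩ := sph_cls irr emb h0.vol hw M hk S s2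
    rcases a3 ρ s1 t0 t1 t2 with rfl | h
    · exact ⟨S, s2⟩
    · linarith

/-- the taming classes depend only on the classes of the triple -/
theorem transport (root : ROOT_statement) (nm : NM_statement) (irr : IRR_statement)
    (emb : EMB_statement) {X : Type} [Cl4 X] {μ : Form X 4} (h0 : Top0 μ) (M : Marking μ)
    {k : Fin 3} {w w' v : Fin 3 → Form X 2} (h : MvAt μ k w w') (hv : Hypersymplectic μ v)
    (hc : Coh w v) : ∃ v', MvAt μ k v v' ∧ Coh w' v' := by
  have hw := h.1.hw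
  choose a ha using fun i => M.span (w i) ⟨hw.smooth i, hw.closed i⟩
  obtain ⟨b, hb⟩ := M.span (w' k) ⟨h.1.hv.smooth k, h.1.hv.closed k⟩
  set a' := Function.update a k b with ha'
  have e1 : ∀ j, j ≠ k → a' j = a j := fun j hj => Function.update_of_ne hj _ _
  have r' : M.Rep w' a' := fun j => by
    by_cases hj : j = k
    · rw [hj, ha', Function.update_self]; exact hb
    · rw [h.2 j hj, e1 j hj]; exact ha j
  have rs : ∀ s : ℝ, M.Rep (lin w w' s) fun j => (1 - s) • a j + s • a' j := fun s j => by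
    show Exact fun x => lin w w' s j x - lc M.c ((1 - s) • a j + s • a' j) x
    rw [lc_seg]
    have e : (fun x => lin w w' s j x - (lc M.c (a j) x + s • (lc M.c (a' j) x - lc M.c (a j) x))) =
        fun x => (1 - s) • (w j x - lc M.c (a j) x) + s • (w' j x - lc M.c (a' j) x) := by
      funext x
      simp only [lin]
      module
    rw [e]
    exact exact_add (exact_smul (ha j) _) (exact_smul (r' j) _)
  obtain ⟨v', m, rv⟩ := ch1_at nm irr emb h0 M hv (a := a) (a' := a')
    (fun j => exact_trans (hc j) (ha j)) k e1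
    (fun s hs => posT_of_rep h0.vol (h.1.hyper hs) M (rs s)) (fun ρ hρ h1 h2 => by
      have key := pos_of_ne (f := fun s => bil M.G (cs ℝ ρ) ((1 - s) • a k + s • a' k)) (by
        simp only [bil_add_right, bil_smul_right]
        fun_prop) (fun s hs => by
          obtain ⟨i, hi⟩ := no_root root h0 M (h.1.hyper hs) (rs s) hρ
          by_cases hik : i = k
          · rw [hik] at hi; exact hi
          · exfalso
            apply hi
            rw [e1 i hik, bil_add_right, bil_smul_right, bil_smul_right, h1 i hik]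
            ring) (by simpa using h2)
      simpa using key)
  exact ⟨v', m, fun j => exact_trans (rv j) (exact_symm (r' j))⟩

end Vale.Agent.P247F
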