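import Vale.Agent.P247.SCY.FG4

/-!
# P247, block F: moves of hypersymplectic triples, definitions
-/

set_option linter.all false

open scoped BigOperators ContDiff Topology Manifold
open Set

namespace Vale.Agent.P247F
open Vale.Agent.P247.SCY Vale.Agent.P247.SCY.HS

variable {X : Type} [TopologicalSpace X] [ChartedSpace E4 X]

/-- the point `w + s (v - w)` of the segment from `w` to `v` -/
noncomputable def lin (w v : Fin 3 → Form X 2) (s : ℝ) : Fin 3 → Form X 2 :=
  fun i x => w i x + s • (v i x - w i x)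

/-- the segment from `w` to `v` consists of hypersymplectic triples -/
structure Seg (μ : Form X 4) (w v : Fin 3 → Form X 2) : Prop where
  hw : Hypersymplectic μ w
  hv : Hypersymplectic μ v
  pos : ∀ s ∈ Icc (0 : ℝ) 1, ∀ x, (Qm μ (lin w v s) x).PosDef

/-- a move in the slot `k`; the class of the slot may change -/
def MvAt (μ : Form X 4) (k : Fin 3) (w v : Fin 3 → Form X 2) : Prop :=
  Seg μ w v ∧ ∀ j, j ≠ k → v j = w j

/-- a move in one slot -/
def Mv (μ : Form X 4) (w v : Fin 3 → Form X 2) : Prop := ∃ k, MvAt μ k w v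

/-- the two triples have the same classes -/
def Coh (w v : Fin 3 → Form X 2) : Prop := ∀ i, Exact fun x => v i x - w i x

/-- finite chains of moves, arbitrary classes -/
def Ch (μ : Form X 4) : (Fin 3 → Form X 2) → (Fin 3 → Form X 2) → Prop :=
  Relation.ReflTransGen (Mv μ)

/-- finite chains of moves in fixed classes -/
def Ch0 (μ : Form X 4) : (Fin 3 → Form X 2) → (Fin 3 → Form X 2) → Prop :=
  Relation.ReflTransGen fun w v => Mv μ w v ∧ Coh w v

/-- hyperkaehler up to a constant linear change: `w_i ∧ w_j = G_ij f μ` with `G` constant -/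
def HKc (μ : Form X 4) (w : Fin 3 → Form X 2) : Prop :=
  Hypersymplectic μ w ∧
    ∃ (G : Fin 3 → Fin 3 → ℝ) (f : X → ℝ), ∀ x i j, quot μ (w i) (w j) x = f x * G i j

/-- the pair `(β, γ)` has a constant conformal Gram matrix -/
def IntPair (μ : Form X 4) (β γ : Form X 2) : Prop :=
  ∃ (a b c : ℝ) (f : X → ℝ), ∀ x,
    quot μ β β x = f x * a ∧ quot μ β γ x = f x * b ∧ quot μ γ γ x = f x * c

/-- `w` is joined in its classes to a hyperkaehler triple -/
def Good (μ : Form X 4) (w : Fin 3 → Form X 2) : Prop := ∃ v, Ch0 μ w v ∧ HKc μ v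

/-- a path of hypersymplectic triples, continuous in the `C⁰` sense, arbitrary classes -/
structure CPath (μ : Form X 4) (W : ℝ → Fin 3 → Form X 2) : Prop where
  hyper : ∀ t ∈ Icc (0 : ℝ) 1, Hypersymplectic μ (W t)
  cont : ∀ i, ∀ e ∈ atlas E4 X,
    ContinuousOn (fun p : ℝ × E4 => loc e (W p.1 i) p.2) (Icc 0 1 ×ˢ e.target)

end Vale.Agent.P247F
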