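import Vale.Agent.P247F.CH

/-!
# P247, block F: free periods
-/

set_option linter.all false

open scoped BigOperators ContDiff Topology Manifold
open Set Filter MeasureTheory

namespace Vale.Agent.P247F
open Vale.Agent.P247.SCY Vale.Agent.P247.SCY.HS
open Vale.Agent.P247X hiding Coh IntPair

/-- the hyperkaehler end: compatible form, Newlander-Nirenberg, Yau -/
def HKEND_statement : Prop := ∀ (X : Type) [Cl4 X] (μ : Form X 4), Volume μ → BPlusLe3 μ →
  ∀ w : Tri X, P247X.IntPair μ w → P247F.Good μ w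

section
variable {X : Type} [Cl4 X] {μ : Form X 4}

theorem Ch0.perm (σ : Equiv.Perm (Fin 3)) {w v : Fin 3 → Form X 2} (h : Ch0 μ w v) :
    Ch0 μ (fun i => w (σ i)) (fun i => v (σ i)) := by
  induction h with
  | refl => exact Relation.ReflTransGen.refl
  | tail _ h2 ih =>
    obtain ⟨⟨k, hk⟩, hc⟩ := h2
    refine Relation.ReflTransGen.tail ih ⟨⟨σ.symm k, MvAt.perm σ ?_⟩, fun i => hc (σ i)⟩
    rwa [Equiv.apply_symm_apply]

theorem HKc.perm (σ : Equiv.Perm (Fin 3)) {w : Fin 3 → Form X 2} (h : HKc μ w) :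
    HKc μ fun i => w (σ i) := by
  obtain ⟨h1, G, f, h2⟩ := h
  exact ⟨hyper_perm σ h1, fun i j => G (σ i) (σ j), f, fun x i j => h2 x _ _⟩

theorem Good.perm (σ : Equiv.Perm (Fin 3)) {w : Fin 3 → Form X 2} (h : P247F.Good μ w) :
    P247F.Good μ fun i => w (σ i) := by
  obtain ⟨v, h1, h2⟩ := h
  exact ⟨_, h1.perm σ, h2.perm σ⟩

theorem Good.of_ch0 {w v : Fin 3 → Form X 2} (h : Ch0 μ w v) (hv : P247F.Good μ v) :
    P247F.Good μ w := by
  obtain ⟨u, h1, h2⟩ := hv
  exact ⟨u, h.trans h1, h2⟩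

/-- transport of a tamer along a move in another slot -/
theorem slide (hμ : Volume μ) {k i : Fin 3} (hik : i ≠ k)
    (tr : ∀ w w' v : Fin 3 → Form X 2, MvAt μ k w w' → Hypersymplectic μ v → Coh w v →
      ∃ v', MvAt μ k v v' ∧ Coh w' v')
    {u v u' : Fin 3 → Form X 2} (h : MvAt μ i u v) (hc : Coh u v) (h' : MvAt μ k u u') :
    ∃ v', MvAt μ k v v' ∧ Ch0 μ u' v' := by
  let S : ℝ → Prop := fun s => ∀ a, MvAt μ k (lin u v s) a → Coh u' a → Ch0 μ u' a
  have hcs : ∀ s, Coh u (lin u v s) := fun s => by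
    have := hc.lin 0 s
    rwa [lin_zero] at this
  have step : ∀ s t a0, Coh u' a0 → MvAt μ k (lin u v s) a0 →
      MvAt μ k (lin u v t) (Function.update (lin u v t) k (a0 k)) →
      MvAt μ i a0 (Function.update (lin u v t) k (a0 k)) → (S s → S t) ∧ (S t → S s) := by
    intro s t a0 c0 m0 m1 m2
    have c1 : Coh a0 (Function.update (lin u v t) k (a0 k)) := by
      refine coh_of_mvAt m2.2 ?_
      rw [Function.update_of_ne hik, m0.2 i hik]
      exact hc.lin s t i
    have q := Ch0.single m2 c1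
    refine ⟨fun hs a ma ca => ?_, fun ht a ma ca => ?_⟩
    · exact ((hs a0 m0 c0).trans q).trans
        (Ch0.single (m1.symm.trans ma) ((c0.trans c1).symm.trans ca))
    · exact ((ht _ m1 (c0.trans c1)).trans q.symm).trans
        (Ch0.single (m0.symm.trans ma) (c0.symm.trans ca))
  have key : S 0 → S 1 := by
    refine (isPreconnected_Icc (a := (0 : ℝ)) (b := 1)).induction₂' (fun s t => S s → S t)
      (fun s hs => ?_)
      (fun _ _ _ _ _ _ a b => b ∘ a) (x := 0) (y := 1) (by simp) (by simp)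
    obtain ⟨a0, m0, c0⟩ := tr u u' (lin u v s) h' (h.1.hyper hs) (hcs s)
    have e0 : Function.update (lin u v s) k (a0 k) = a0 := by
      funext j
      by_cases hj : j = k
      · rw [hj, Function.update_self]
      · rw [Function.update_of_ne hj, m0.2 j hj]
    have h1 := qm_eventually hμ (K := Icc (0 : ℝ) 1) (P := ℝ)
      (W := fun z => lin (lin u v z.1) (Function.update (lin u v z.1) k (a0 k)) z.2) (fun j => by
        refine FamC.seg ((famC_lin h.1.hw h.1.hv j).comp continuous_fst) ?_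
          (c := fun z : ℝ × Icc (0 : ℝ) 1 => (z.2 : ℝ)) (by fun_prop)
        by_cases hj : j = k
        · simp only [hj, Function.update_self]
          exact famC_const (cont_of_smooth (m0.1.hv.smooth k))
        · simp only [Function.update_of_ne hj]
          exact (famC_lin h.1.hw h.1.hv j).comp continuous_fst) (p0 := s) (fun r x => by
        simp only [e0]
        exact m0.1.pos r r.2 x)
    obtain ⟨δ, hδ, h2⟩ := Metric.eventually_nhds_iff.1 h1
    have hy : ∀ t ∈ Icc (0 : ℝ) 1, dist t s < δ →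
        Hypersymplectic μ (Function.update (lin u v t) k (a0 k)) := by
      intro t ht hd
      refine ⟨fun j => ?_, fun j => ?_, fun x => ?_⟩
      · by_cases hj : j = k
        · rw [hj, Function.update_self]; exact m0.1.hv.smooth k
        · rw [Function.update_of_ne hj]; exact (h.1.hyper ht).smooth j
      · by_cases hj : j = k
        · rw [hj, Function.update_self]; exact m0.1.hv.closed k
        · rw [Function.update_of_ne hj]; exact (h.1.hyper ht).closed j
      · have := h2 hd ⟨1, by simp⟩ x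
        simpa only [lin_one] using this
    filter_upwards [self_mem_nhdsWithin, mem_nhdsWithin_of_mem_nhds (Metric.ball_mem_nhds s hδ)]
      with t ht hd
    refine step s t a0 c0 m0 ⟨⟨h.1.hyper ht, hy t ht hd, fun r hr x => h2 hd ⟨r, hr⟩ x⟩,
      fun j hj => Function.update_of_ne hj _ _⟩ ⟨⟨m0.1.hv, hy t ht hd, fun r hr x => ?_⟩,
      fun j hj => ?_⟩
    · have e1 : lin a0 (Function.update (lin u v t) k (a0 k)) r =
          Function.update (lin u v (s + r * (t - s))) k (a0 k) := by
        funext j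
        by_cases hj : j = k
        · rw [hj, Function.update_self]
          exact lin_of_eq (Function.update_self _ _ _) r
        · rw [Function.update_of_ne hj, ← lin_lin]
          funext x
          simp only [lin, Function.update_of_ne hj, m0.2 j hj]
      rw [e1]
      refine (hy _ ⟨?_, ?_⟩ ?_).posDef x
      · nlinarith [hs.1, ht.1, hr.1, hr.2, mul_nonneg hr.1 ht.1,
          mul_nonneg (sub_nonneg.2 hr.2) hs.1]
      · nlinarith [hs.2, ht.2, hr.1, hr.2, mul_nonneg hr.1 (sub_nonneg.2 ht.2),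
          mul_nonneg (sub_nonneg.2 hr.2) (sub_nonneg.2 hs.2)]
      · have hd' : |t - s| < δ := hd
        rw [Real.dist_eq, add_sub_cancel_left, abs_mul, abs_of_nonneg hr.1]
        nlinarith [hr.1, hr.2, abs_nonneg (t - s)]
    · by_cases hjk : j = k
      · rw [hjk, Function.update_self]
      · rw [Function.update_of_ne hjk, m0.2 j hjk, lin_of_eq (h.2 j hj), lin_of_eq (h.2 j hj)]
  obtain ⟨v', m, c⟩ := tr u u' v h' h.1.hv hc
  refine ⟨v', m, key (fun a ma ca => ?_) v' (by rwa [lin_one]) c⟩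
  rw [lin_zero] at ma
  exact Ch0.single (h'.symm.trans ma) ca

theorem slide_chain (hμ : Volume μ) {k : Fin 3}
    (tr : ∀ w w' v : Fin 3 → Form X 2, MvAt μ k w w' → Hypersymplectic μ v → Coh w v →
      ∃ v', MvAt μ k v v' ∧ Coh w' v')
    {w w' v : Fin 3 → Form X 2} (h' : MvAt μ k w w') (h : Ch0 μ w v) :
    ∃ v', MvAt μ k v v' ∧ Ch0 μ w' v' := by
  induction h with
  | refl => exact ⟨w', h', Relation.ReflTransGen.refl⟩
  | tail _ h2 ih =>
    obtain ⟨u', m, c⟩ := ih
    obtain ⟨⟨i, hi⟩, hc⟩ := h2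
    by_cases hik : i = k
    · rw [hik] at hi
      exact ⟨u', hi.symm.trans m, c⟩
    · obtain ⟨v', m', c'⟩ := slide hμ hik tr hi hc m
      exact ⟨v', m', c.trans c'⟩

theorem good_mv (hk : HKEND_statement) (hμ : Volume μ) (hb : BPlusLe3 μ) {k : Fin 3}
    (tr : ∀ w w' v : Fin 3 → Form X 2, MvAt μ k w w' → Hypersymplectic μ v → Coh w v →
      ∃ v', MvAt μ k v v' ∧ Coh w' v')
    {w w' : Fin 3 → Form X 2} (h' : MvAt μ k w w') (h : P247F.Good μ w) : P247F.Good μ w' := by
  obtain ⟨v, h1, -, G, f, h2⟩ := h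
  obtain ⟨v', m, c⟩ := slide_chain hμ tr h' h1
  refine Good.of_ch0 c ?_
  set σ : Equiv.Perm (Fin 3) := Equiv.swap k 2 with hσ
  have e2 : σ 2 = k := by simp [hσ]
  have e0 : σ 0 ≠ k := by rw [← e2]; exact σ.injective.ne (by decide)
  have e1 : σ 1 ≠ k := by rw [← e2]; exact σ.injective.ne (by decide)
  have h3 := (hk X μ hμ hb (fun i => v' (σ i)) ⟨hyper_perm σ m.1.hv, G (σ 0) (σ 0), G (σ 0) (σ 1),
    G (σ 1) (σ 1), f, fun x => by
      simp only [m.2 _ e0, m.2 _ e1]
      exact ⟨h2 x _ _, h2 x _ _, h2 x _ _⟩⟩).perm σ.symm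
  simpa only [Equiv.apply_symm_apply] using h3

theorem fin_of_good (hμ : Volume μ) {w : Fin 3 → Form X 2} (hw : Hypersymplectic μ w)
    (hn : Normalized μ w) (h : P247F.Good μ w) :
    ∃ W, Deformation μ w W ∧ Hyperkahler μ (W 1) := by
  obtain ⟨v, h1, hv, G, f, h2⟩ := h
  obtain ⟨W, hW, e⟩ := h1.deformation hw
  have hn' := normalized_deformation hμ (vol_fin hμ hw) hw hn hW
  rw [e] at hn'
  refine ⟨W, hW, ?_⟩
  rw [e]
  have hG : ∀ i j, (∫ x, f x ∂(vol μ)) * G i j = if i = j then 1 else 0 := fun i j => by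
    rw [← hn' i j, ← integral_mul_const]
    unfold pair
    simp only [funext fun x => h2 x i j]
  set I := ∫ x, f x ∂(vol μ) with hI
  have hI0 : I ≠ 0 := by
    intro h0
    have := hG 0 0
    rw [h0, zero_mul, if_pos rfl] at this
    exact zero_ne_one this
  have hp : ∀ x, 0 < quot μ (v 0) (v 0) x := fun x => by
    have := tri_of_posDef hv.posDef x 1 0 0 (Or.inl one_ne_zero)
    linarith
  refine ⟨hv, smulV (fun x => quot μ (v 0) (v 0) x / 2) μ, volume_of hμ (hv.smooth 0) hp,
    fun x => ?_, fun x => ?_⟩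
  · show 0 < (quot μ (v 0) (v 0) x / 2 * ax μ x bas) / ax μ x bas
    rw [mul_div_assoc, div_self (ax_ne hμ x), mul_one]
    exact half_pos (hp x)
  · ext i j
    show quot (smulV (fun x => quot μ (v 0) (v 0) x / 2) μ) (v i) (v j) x / 2 = _
    rw [quot_smulV, Matrix.one_apply, ← hG i j]
    have h3 := hp x
    have h4 := hG 0 0
    rw [if_pos rfl] at h4
    rw [h2 x 0 0] at h3 ⊢
    rw [h2 x i j]
    have h5 : f x ≠ 0 := left_ne_zero_of_mul h3.ne'
    have h6 : G 0 0 ≠ 0 := right_ne_zero_of_mul h3.ne'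
    field_simp
    linear_combination (-G i j) * h4

end

theorem free_of (root : ROOT_statement) (nm : NM_statement) (irr : IRR_statement)
    (emb : EMB_statement) (hk : HKEND_statement) : FREE_statement := by
  intro X _ μ h0 ⟨M⟩ w w' hch hint hn
  have key : ∀ u, Ch μ w' u → P247F.Good μ u := by
    intro u hu
    induction hu with
    | refl => exact hk X μ h0.vol h0.bp w' hint
    | tail _ h2 ih =>
      obtain ⟨k, hk'⟩ := h2
      exact good_mv hk h0.vol h0.bp (fun _ _ _ a b c => transport root nm irr emb h0 M a b c) hk' ih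
  exact fin_of_good h0.vol ((Ch.symm hch).hyper hint.1) hn (key w (Ch.symm hch))

end Vale.Agent.P247F
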