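import Mathlib

/-!
# P247, block F: Hahn-Banach and Krein-Milman in ordered vector spaces with an order unit
-/

set_option linter.all false

open Set

namespace Vale.Agent.P247F

section
variable {V : Type*} [AddCommGroup V] [Module ℝ V] {P : Set V} {E : Submodule ℝ V} {om α : V}

theorem exists_pos_fun (P0 : (0 : V) ∈ P) (Padd : ∀ x ∈ P, ∀ y ∈ P, x + y ∈ P)
    (Psmul : ∀ c : ℝ, 0 ≤ c → ∀ x ∈ P, c • x ∈ P) (hom : om ∈ P)
    (unit : ∀ y, ∃ C : ℝ, C • om + y ∈ P) (no : ∀ e ∈ E, ∀ c : ℝ, 0 < c → α + e - c • om ∉ P) :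
    ∃ T : V →ₗ[ℝ] ℝ, T om = 1 ∧ (∀ φ ∈ P, 0 ≤ T φ) ∧ (∀ e ∈ E, T e = 0) ∧ T α ≤ 0 := by
  have hne : om ≠ 0 := by
    intro h0
    obtain ⟨C, hC⟩ := unit α
    apply no 0 E.zero_mem 1 one_pos
    rw [h0, smul_zero, zero_add] at hC
    rwa [h0, smul_zero, add_zero, sub_zero]
  let s : PointedCone ℝ V :=
    { carrier := {y | ∃ φ ∈ P, ∃ e ∈ E, ∃ t : ℝ, 0 ≤ t ∧ y = φ + e - t • α}
      zero_mem' := ⟨0, P0, 0, E.zero_mem, 0, le_rfl, by simp⟩
      add_mem' := by
        rintro _ _ ⟨φ, hφ, e, he, t, ht, rfl⟩ ⟨φ', hφ', e', he', t', ht', rfl⟩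
        exact ⟨φ + φ', Padd _ hφ _ hφ', e + e', E.add_mem he he', t + t', add_nonneg ht ht', by
          module⟩
      smul_mem' := by
        rintro ⟨c, hc⟩ _ ⟨φ, hφ, e, he, t, ht, rfl⟩
        refine ⟨c • φ, Psmul c hc _ hφ, c • e, E.smul_mem c he, c * t, mul_nonneg hc ht, ?_⟩
        show c • (φ + e - t • α) = _
        module }
  let f : V →ₗ.[ℝ] ℝ := LinearPMap.mkSpanSingleton (σ := RingHom.id ℝ) om (1 : ℝ) hne
  have hf : ∀ (c : ℝ) (h : c • om ∈ f.domain), f ⟨c • om, h⟩ = c := by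
    intro c h
    have := LinearPMap.mkSpanSingleton'_apply (σ := RingHom.id ℝ) om (1 : ℝ) _ c h
    rw [RingHom.id_apply, smul_eq_mul, mul_one] at this
    exact this
  have hmem : ∀ c : ℝ, c • om ∈ f.domain := fun c => Submodule.mem_span_singleton.2 ⟨c, rfl⟩
  obtain ⟨g, hg, hgs⟩ := riesz_extension s f (by
    rintro ⟨x, hx⟩ ⟨φ, hφ, e, he, t, ht, hxe⟩
    obtain ⟨c, rfl⟩ := Submodule.mem_span_singleton.1 hx
    rw [hf]
    by_contra hc
    push Not at hc
    have hxe' : c • om = φ + e - t • α := hxe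
    rcases eq_or_lt_of_le ht with ht0 | ht0
    · obtain ⟨C, hC⟩ := unit α
      set N : ℝ := (|C| + 1) / (-c) with hN
      have hN0 : 0 ≤ N := div_nonneg (by positivity) (by linarith)
      have hNc : N * c = -(|C| + 1) := by
        rw [hN]; field_simp [hc.ne]
      apply no (-(N • e)) (E.neg_mem (E.smul_mem N he)) 1 one_pos
      have e1 : e = c • om - φ := by rw [hxe', ← ht0]; module
      have e2 : α + -(N • e) - (1 : ℝ) • om = (C • om + α) + N • φ + (|C| - C) • om := by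
        rw [e1, smul_sub, smul_smul, hNc]; module
      rw [e2]
      exact Padd _ (Padd _ hC _ (Psmul N hN0 _ hφ)) _ (Psmul _ (sub_nonneg.2 (le_abs_self C)) _ hom)
    · apply no (-(t⁻¹ • e)) (E.neg_mem (E.smul_mem _ he)) (-c / t) (div_pos (by linarith) ht0)
      have e1 : φ = c • om - e + t • α := by rw [hxe']; module
      have e2 : α + -(t⁻¹ • e) - (-c / t) • om = t⁻¹ • φ := by
        rw [e1, smul_add, smul_sub, smul_smul, smul_smul, inv_mul_cancel₀ ht0.ne', div_eq_inv_mul]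
        module
      rw [e2]
      exact Psmul _ (inv_pos.2 ht0).le _ hφ) (by
    intro y
    obtain ⟨C, hC⟩ := unit y
    exact ⟨⟨C • om, hmem C⟩, C • om + y, hC, 0, E.zero_mem, 0, le_rfl, by simp⟩)
  refine ⟨g, ?_, fun φ hφ => hgs φ ⟨φ, hφ, 0, E.zero_mem, 0, le_rfl, by simp⟩, fun e he => ?_, ?_⟩
  · have := hg ⟨(1 : ℝ) • om, hmem 1⟩
    rw [hf] at this
    simpa using this
  · have h1 := hgs e ⟨0, P0, e, he, 0, le_rfl, by simp⟩
    have h2 := hgs (-e) ⟨0, P0, -e, E.neg_mem he, 0, le_rfl, by simp⟩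
    rw [map_neg] at h2
    linarith
  · have h2 := hgs (-α) ⟨0, P0, 0, E.zero_mem, 1, zero_le_one, by simp⟩
    rw [map_neg] at h2
    linarith

/-- normalised positive functionals which vanish on `E` -/
def Bs (P : Set V) (E : Submodule ℝ V) (om : V) : Set (V → ℝ) :=
  {T | (∀ x y, T (x + y) = T x + T y) ∧ (∀ (c : ℝ) x, T (c • x) = c * T x) ∧
    (∀ φ ∈ P, 0 ≤ T φ) ∧ (∀ e ∈ E, T e = 0) ∧ T om = 1}

theorem isCompact_Bs (unit : ∀ y, ∃ C : ℝ, C • om + y ∈ P) : IsCompact (Bs P E om) := by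
  choose C hC using unit
  have hcl : IsClosed (Bs P E om) := by
    unfold Bs
    simp only [setOf_and, setOf_forall]
    refine IsClosed.inter ?_ (IsClosed.inter ?_ (IsClosed.inter ?_ (IsClosed.inter ?_ ?_)))
    · exact isClosed_iInter fun x => isClosed_iInter fun y => isClosed_eq (by fun_prop) (by fun_prop)
    · exact isClosed_iInter fun x => isClosed_iInter fun y => isClosed_eq (by fun_prop) (by fun_prop)
    · exact isClosed_iInter fun x => isClosed_iInter fun y => isClosed_le (by fun_prop) (by fun_prop)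
    · exact isClosed_iInter fun x => isClosed_iInter fun y => isClosed_eq (by fun_prop) (by fun_prop)
    · exact isClosed_eq (by fun_prop) (by fun_prop)
  refine (isCompact_univ_pi fun y => isCompact_Icc (a := -C y) (b := C (-y))).of_isClosed_subset
    hcl ?_
  rintro T ⟨h1, h2, h3, -, h5⟩ y -
  have a1 := h3 _ (hC y)
  have a2 := h3 _ (hC (-y))
  have a3 : T (-y) = -T y := by
    have := h2 (-1) y
    rw [neg_one_smul] at this
    linarith
  rw [h1, h2, h5] at a1 a2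
  constructor <;> linarith

theorem exists_extreme (P0 : (0 : V) ∈ P) (Padd : ∀ x ∈ P, ∀ y ∈ P, x + y ∈ P)
    (Psmul : ∀ c : ℝ, 0 ≤ c → ∀ x ∈ P, c • x ∈ P) (hom : om ∈ P)
    (unit : ∀ y, ∃ C : ℝ, C • om + y ∈ P) (no : ∀ e ∈ E, ∀ c : ℝ, 0 < c → α + e - c • om ∉ P) :
    ∃ T ∈ Bs P E om, T α ≤ 0 ∧ ∀ S : V → ℝ, (∀ x y, S (x + y) = S x + S y) →
      (∀ (c : ℝ) x, S (c • x) = c * S x) → (∀ φ ∈ P, 0 ≤ S φ) → (∀ e ∈ E, S e = 0) →
      (∀ φ ∈ P, S φ ≤ T φ) → ∀ φ, S φ = S om * T φ := by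
  obtain ⟨g, g1, g2, g3, g4⟩ := exists_pos_fun P0 Padd Psmul hom unit no
  have hg : (g : V → ℝ) ∈ Bs P E om :=
    ⟨fun x y => map_add g x y, fun c x => map_smul g c x, g2, g3, g1⟩
  have hB := isCompact_Bs (E := E) unit
  obtain ⟨T0, hT0, hmin⟩ := hB.exists_isMinOn ⟨_, hg⟩ (f := fun T => T α) (by fun_prop)
  have hF : IsCompact (Bs P E om ∩ {T | T α = T0 α}) :=
    hB.inter_right (isClosed_eq (by fun_prop) (by fun_prop))
  obtain ⟨T, ⟨hT, hTα⟩, hext⟩ := hF.extremePoints_nonempty ⟨T0, hT0, rfl⟩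
  have hTα' : T α = T0 α := hTα
  have hext' : ∀ T1 ∈ Bs P E om, ∀ T2 ∈ Bs P E om, T ∈ openSegment ℝ T1 T2 → T1 = T := by
    intro T1 h1 T2 h2 hs
    obtain ⟨a, b, ha, hb, hab, he⟩ := hs
    have e1 : a * T1 α + b * T2 α = T0 α := by rw [← hTα', ← he]; rfl
    have m1 : T0 α ≤ T1 α := hmin h1
    have m2 : T0 α ≤ T2 α := hmin h2
    have e2 : T0 α = a * T0 α + b * T0 α := by rw [← add_mul, hab, one_mul]
    have e3 : T1 α = T0 α := by nlinarith
    have e4 : T2 α = T0 α := by nlinarith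
    exact hext ⟨h1, e3⟩ ⟨h2, e4⟩ ⟨a, b, ha, hb, hab, he⟩
  refine ⟨T, hT, by have : T0 α ≤ g α := hmin hg; linarith, fun S s1 s2 s3 s4 s5 φ => ?_⟩
  obtain ⟨t1, t2, t3, t4, t5⟩ := hT
  have zero : ∀ R : V → ℝ, (∀ x y, R (x + y) = R x + R y) → (∀ (c : ℝ) x, R (c • x) = c * R x) →
      (∀ φ ∈ P, 0 ≤ R φ) → R om = 0 → ∀ y, R y = 0 := by
    intro R r1 r2 r3 r4 y
    obtain ⟨C, hC⟩ := unit y
    obtain ⟨C', hC'⟩ := unit (-y)
    have a1 := r3 _ hC
    have a2 := r3 _ hC'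
    have a3 : R (-y) = -R y := by
      have := r2 (-1) y
      rw [neg_one_smul] at this
      linarith
    rw [r1, r2, r4] at a1 a2
    linarith
  have l0 : 0 ≤ S om := s3 _ hom
  have l1 : S om ≤ 1 := by rw [← t5]; exact s5 _ hom
  rcases eq_or_lt_of_le l0 with h0 | h0
  · rw [zero S s1 s2 s3 h0.symm φ, ← h0, zero_mul]
  rcases eq_or_lt_of_le l1 with h1 | h1
  · have := zero (fun y => T y - S y) (fun x y => by simp only [t1, s1]; ring)
      (fun c x => by simp only [t2, s2]; ring) (fun y hy => sub_nonneg.2 (s5 y hy))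
      (by simp only [t5, h1, sub_self]) φ
    rw [h1, one_mul]
    linarith
  have h2 : 0 < 1 - S om := by linarith
  have key := hext' (fun y => (S om)⁻¹ * S y) ⟨fun x y => by simp only [s1]; ring,
      fun c x => by simp only [s2]; ring, fun y hy => mul_nonneg (inv_pos.2 h0).le (s3 y hy),
      fun e he => by simp only [s4 e he, mul_zero], inv_mul_cancel₀ h0.ne'⟩
    (fun y => (1 - S om)⁻¹ * (T y - S y)) ⟨fun x y => by simp only [s1, t1]; ring,
      fun c x => by simp only [s2, t2]; ring,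
      fun y hy => mul_nonneg (inv_pos.2 h2).le (sub_nonneg.2 (s5 y hy)),
      fun e he => by simp only [s4 e he, t4 e he, sub_zero, mul_zero], by
        simp only [t5]; exact inv_mul_cancel₀ h2.ne'⟩
    ⟨S om, 1 - S om, h0, h2, by ring, by
      funext y
      simp only [Pi.add_apply, Pi.smul_apply, smul_eq_mul]
      field_simp
      ring⟩
  have := congrFun key φ
  rw [← this]
  field_simp

end

end Vale.Agent.P247F
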