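import Vale.Agent.P247F.Alg
import Vale.Agent.P272.K.Iface

/-!
# P247, block F: real two-forms on `ℂ²` and hermitian matrices
-/

set_option linter.all false

open scoped BigOperators ContDiff Topology ComplexOrder Matrix
open Set Complex

noncomputable section

namespace Vale.Agent.P247F
open Vale.Agent.P204.T4 Vale.Agent.P204.Mfd Vale.Agent.P272.K

/-- real alternating forms on `ℂ²` -/
abbrev AltV (k : ℕ) := Cm 2 [⋀^Fin k]→L[ℝ] ℝ

/-- real coordinates on `ℂ²` -/
def phi : V4 ≃L[ℝ] Cm 2 :=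
  LinearEquiv.toContinuousLinearEquiv
    { toFun := fun v => ![⟨v 0, v 1⟩, ⟨v 2, v 3⟩]
      invFun := fun z => ![(z 0).re, (z 0).im, (z 1).re, (z 1).im]
      map_add' := fun v w => by
        funext i; fin_cases i <;> apply Complex.ext <;> simp
      map_smul' := fun c v => by
        funext i; fin_cases i <;> apply Complex.ext <;> simp
      left_inv := fun v => by funext i; fin_cases i <;> simp
      right_inv := fun z => by funext i; fin_cases i <;> simp }

theorem phi_apply (v : V4) : phi v = ![⟨v 0, v 1⟩, ⟨v 2, v 3⟩] := rfl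

theorem phi_symm (z : Cm 2) : phi.symm z = ![(z 0).re, (z 0).im, (z 1).re, (z 1).im] := rfl

theorem phi_J0 (v : V4) : phi (app J0 v) = I • phi v := by
  rw [app_J0, phi_apply, phi_apply]
  funext i; fin_cases i <;> apply Complex.ext <;> simp

/-- the components of a form on `ℂ²` -/
def cV (A : AltV 2) : L2 := compL (A.compContinuousLinearMap (phi : V4 →L[ℝ] Cm 2))

theorem ev_cV (A : AltV 2) (v w : V4) : ev (cV A) v w = A ![phi v, phi w] := by
  rw [cV, ev_compL, comp_apply2]; rfl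

theorem altV_eq (A : AltV 2) (u v : Cm 2) : A ![u, v] = ev (cV A) (phi.symm u) (phi.symm v) := by
  rw [ev_cV, phi.apply_symm_apply, phi.apply_symm_apply]

theorem altV_coord (A : AltV 2) (u v : Cm 2) : A ![u, v] =
    cV A 0 * ((u 0).re * (v 0).im - (u 0).im * (v 0).re) +
    cV A 1 * ((u 0).re * (v 1).re - (u 1).re * (v 0).re) +
    cV A 2 * ((u 0).re * (v 1).im - (u 1).im * (v 0).re) +
    cV A 3 * ((u 0).im * (v 1).re - (u 1).re * (v 0).im) +
    cV A 4 * ((u 0).im * (v 1).im - (u 1).im * (v 0).im) +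
    cV A 5 * ((u 1).re * (v 1).im - (u 1).im * (v 1).re) := by
  rw [altV_eq, ev_eq, phi_symm, phi_symm]
  rfl

/-- invariant forms -/
def Inv (A : AltV 2) : Prop := ∀ u v, A ![I • u, I • v] = A ![u, v]

/-- anti-invariant forms -/
def Anti (A : AltV 2) : Prop := ∀ u v, A ![I • u, I • v] = -A ![u, v]

theorem Inv.comp {A : AltV 2} (h : Inv A) : cV A 4 = cV A 1 ∧ cV A 3 = -cV A 2 := by
  have h1 := h ![1, 0] ![0, 1]
  have h2 := h ![1, 0] ![0, I]
  rw [altV_coord, altV_coord] at h1 h2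
  simp at h1 h2
  exact ⟨h1, by linarith⟩

theorem inv_of_comp {A : AltV 2} (h : cV A 4 = cV A 1 ∧ cV A 3 = -cV A 2) : Inv A := by
  intro u v
  rw [altV_coord, altV_coord, h.1, h.2]
  simp
  ring

theorem Anti.comp {A : AltV 2} (h : Anti A) :
    cV A 0 = 0 ∧ cV A 5 = 0 ∧ cV A 4 = -cV A 1 ∧ cV A 3 = cV A 2 := by
  have h0 := h ![1, 0] ![I, 0]
  have h1 := h ![1, 0] ![0, 1]
  have h2 := h ![1, 0] ![0, I]
  have h3 := h ![0, 1] ![0, I]
  rw [altV_coord, altV_coord] at h0 h1 h2 h3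
  simp at h0 h1 h2 h3
  exact ⟨by linarith, by linarith, h1, by linarith⟩

theorem Q_inv_anti' {A B : AltV 2} (hA : Inv A) (hB : Anti B) : Q (cV A) (cV B) = 0 := by
  obtain ⟨a1, a2⟩ := hA.comp
  obtain ⟨b0, b5, b1, b2⟩ := hB.comp
  simp only [Q, a1, a2, b0, b5, b1, b2]
  ring

theorem inv_of_perp {A B C : AltV 2} (hB : Anti B) (hC : Anti C)
    (hd : P247.SCY.dsc (cV B) (cV C) ≠ 0) (h1 : Q (cV A) (cV B) = 0) (h2 : Q (cV A) (cV C) = 0) :
    Inv A := by
  obtain ⟨b0, b5, b1, b2⟩ := hB.comp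
  obtain ⟨c0, c5, c1, c2⟩ := hC.comp
  have hD : cV B 1 * cV C 2 - cV B 2 * cV C 1 ≠ 0 := by
    intro h0
    apply hd
    simp only [P247.SCY.dsc, Q, b0, b5, b1, b2, c0, c5, c1, c2]
    linear_combination 4 * (cV B 1 * cV C 2 - cV B 2 * cV C 1) * h0
  simp only [Q, b0, b5, b1, b2, c0, c5, c1, c2] at h1 h2
  refine inv_of_comp ⟨?_, ?_⟩
  · apply mul_left_cancel₀ hD
    linear_combination (-cV C 2) * h1 + cV B 2 * h2
  · apply mul_left_cancel₀ hD
    linear_combination (-cV C 1) * h1 + cV B 1 * h2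

/-- the hermitian form of an invariant two-form -/
def HA (A : AltV 2) (u v : Cm 2) : ℂ := ((A ![u, I • v] : ℝ) - I * (A ![u, v] : ℝ)) / 2

/-- the hermitian matrix of an invariant two-form -/
def herm (A : AltV 2) : Matrix (Fin 2) (Fin 2) ℂ :=
  Matrix.of fun j k => HA A (Pi.single j 1) (Pi.single k 1)

theorem herm_eq {A : AltV 2} (h : Inv A) : herm A =
    !![(⟨cV A 0 / 2, 0⟩ : ℂ), (⟨cV A 2 / 2, -cV A 1 / 2⟩ : ℂ);
      (⟨cV A 2 / 2, cV A 1 / 2⟩ : ℂ), (⟨cV A 5 / 2, 0⟩ : ℂ)] := by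
  obtain ⟨a1, a2⟩ := h.comp
  ext j k
  fin_cases j <;> fin_cases k <;> apply Complex.ext <;>
    simp [herm, HA, altV_coord, a1, a2] <;> ring

theorem HA_eq {A : AltV 2} (h : Inv A) (u v : Cm 2) :
    HA A u v = ∑ j, ∑ k, u j * herm A j k * (starRingEnd ℂ) (v k) := by
  obtain ⟨a1, a2⟩ := h.comp
  rw [herm_eq h]
  apply Complex.ext <;> simp [HA, altV_coord, a1, a2, Fin.sum_univ_two] <;> ring

theorem herm_add (A B : AltV 2) : herm (A + B) = herm A + herm B := by
  ext j k
  simp only [herm, HA, Matrix.of_apply, Matrix.add_apply, ContinuousAlternatingMap.add_apply]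
  push_cast
  ring

theorem Inv.add {A B : AltV 2} (h : Inv A) (h' : Inv B) : Inv (A + B) := fun u v => by
  simp only [ContinuousAlternatingMap.add_apply, h u v, h' u v]

theorem det_herm {A : AltV 2} (h : Inv A) : (herm A).det.re = Q (cV A) (cV A) / 8 := by
  obtain ⟨a1, a2⟩ := h.comp
  rw [herm_eq h, Matrix.det_fin_two]
  simp [Q, a1, a2]
  ring

theorem herm_form {A : AltV 2} (h : Inv A) (x : Cm 2) :
    star x ⬝ᵥ (herm A).mulVec x = ((A ![star x, I • star x] / 2 : ℝ) : ℂ) := by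
  obtain ⟨a1, a2⟩ := h.comp
  rw [herm_eq h]
  apply Complex.ext <;>
    simp [dotProduct, Matrix.mulVec, altV_coord, a1, a2, Fin.sum_univ_two] <;> ring

theorem herm_posDef_iff {A : AltV 2} (h : Inv A) :
    (herm A).PosDef ↔ ∀ u, u ≠ 0 → 0 < A ![u, I • u] := by
  constructor
  · intro hp u hu
    have h1 := hp.dotProduct_mulVec_pos (x := star u) (by simpa using hu)
    rw [herm_form h, star_star, Complex.zero_lt_real] at h1
    linarith
  · intro hp
    refine Matrix.PosDef.of_dotProduct_mulVec_pos ?_ fun x hx => ?_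
    · rw [herm_eq h]
      ext j k
      fin_cases j <;> fin_cases k <;> apply Complex.ext <;> simp <;> ring
    · rw [herm_form h, Complex.zero_lt_real]
      exact half_pos (hp _ (by simpa using hx))

theorem herm_comp {A : AltV 2} (h : Inv A) (L : Cm 2 →L[ℝ] Cm 2) (hL : ∀ u, L (I • u) = I • L u) :
    herm (A.compContinuousLinearMap L) = (Matrix.of fun p i => L (Pi.single i 1) p).transpose *
      herm A * (Matrix.of fun p i => L (Pi.single i 1) p).map (starRingEnd ℂ) := by
  ext i j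
  have e : herm (A.compContinuousLinearMap L) i j =
      HA A (L (Pi.single i 1)) (L (Pi.single j 1)) := by
    simp only [herm, HA, Matrix.of_apply, comp_apply2, hL]
  rw [e, HA_eq h]
  simp only [Matrix.mul_apply, Matrix.transpose_apply, Matrix.of_apply, Matrix.map_apply,
    Fin.sum_univ_two]
  ring

end Vale.Agent.P247F
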