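import Vale.Agent.P247F.HK1

/-!
# P247, block F: closed invariant two-forms on `ℂ²` and the complex Hessian
-/

set_option linter.all false

open scoped BigOperators ContDiff Topology ComplexOrder Matrix
open Set Complex Filter

noncomputable section

namespace Vale.Agent.P247F
open Vale.Agent.P204.T4 Vale.Agent.P204.Mfd Vale.Agent.P272.K

section gen
variable {V : Type*} [NormedAddCommGroup V] [NormedSpace ℝ V]

theorem extD_one (a : V → V [⋀^Fin 1]→L[ℝ] ℝ) (z u v : V) :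
    extDeriv a z ![u, v] = fderiv ℝ a z u ![v] - fderiv ℝ a z v ![u] := by
  have h : Fin.removeNth 0 ![u, v] = ![v] ∧ Fin.removeNth 1 ![u, v] = ![u] := by
    refine ⟨?_, ?_⟩ <;> funext i <;> fin_cases i <;> rfl
  rw [extDeriv, ContinuousAlternatingMap.alternatizeUncurryFin_apply, Fin.sum_univ_two, h.1, h.2]
  simp
  ring

theorem extD_two (a : V → V [⋀^Fin 2]→L[ℝ] ℝ) (z u v w : V) :
    extDeriv a z ![u, v, w] = fderiv ℝ a z u ![v, w] - fderiv ℝ a z v ![u, w]
      + fderiv ℝ a z w ![u, v] := by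
  have h : Fin.removeNth 0 ![u, v, w] = ![v, w] ∧
      Fin.removeNth 1 ![u, v, w] = ![u, w] ∧ Fin.removeNth 2 ![u, v, w] = ![u, v] := by
    refine ⟨?_, ?_, ?_⟩ <;> funext i <;> fin_cases i <;> rfl
  rw [extDeriv, ContinuousAlternatingMap.alternatizeUncurryFin_apply, Fin.sum_univ_three,
    h.1, h.2.1, h.2.2]
  simp
  ring

theorem fderiv_clm {E F : Type*} [NormedAddCommGroup E] [NormedSpace ℝ E] [NormedAddCommGroup F]
    [NormedSpace ℝ F] (L : E →L[ℝ] F) {a : V → E} {z : V} (ha : DifferentiableAt ℝ a z) (u : V) :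
    fderiv ℝ (fun y => L (a y)) z u = L (fderiv ℝ a z u) := by
  have := (L.hasFDerivAt.comp z ha.hasFDerivAt).fderiv
  exact congrArg (fun M : V →L[ℝ] F => M u) this

end gen

/-- evaluation -/
def evV {k : ℕ} (v : Fin k → Cm 2) : AltV k →L[ℝ] ℝ := ContinuousAlternatingMap.apply ℝ (Cm 2) ℝ v

theorem evV_apply {k : ℕ} (v : Fin k → Cm 2) (A : AltV k) : evV v A = A v := rfl

/-- `HA` as a linear map -/
def HL (u v : Cm 2) : AltV 2 →L[ℝ] ℂ :=
  (1 / 2 : ℂ) • (ofRealCLM.comp (evV ![u, I • v]) - I • ofRealCLM.comp (evV ![u, v]))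

theorem HL_apply (u v : Cm 2) (A : AltV 2) : HL u v A = HA A u v := by
  simp only [HL, HA, ContinuousLinearMap.smul_apply, ContinuousLinearMap.sub_apply,
    ContinuousLinearMap.comp_apply, evV_apply, ofRealCLM_apply, smul_eq_mul]
  ring

theorem single_I (k : Fin 2) : (Pi.single k I : Cm 2) = I • Pi.single k 1 := by
  rw [← Pi.single_smul, smul_eq_mul, mul_one]

theorem herm_cd {a : Cm 2 → AltV 2} {z : Cm 2} (ha : ContDiffAt ℝ ∞ a z) (i j : Fin 2) :
    ContDiffAt ℝ ∞ (fun y => herm (a y) i j) z := by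
  have : (fun y => herm (a y) i j) = fun y => HL (Pi.single i 1) (Pi.single j 1) (a y) :=
    funext fun y => (HL_apply _ _ _).symm
  rw [this]
  exact (HL _ _).contDiff.contDiffAt.comp z ha

theorem dz_herm {a : Cm 2 → AltV 2} {z : Cm 2} (ha : DifferentiableAt ℝ a z) (i j k : Fin 2) :
    dz k (fun y => herm (a y) i j) z =
      (HA (fderiv ℝ a z (Pi.single k 1)) (Pi.single i 1) (Pi.single j 1) -
        I * HA (fderiv ℝ a z (I • Pi.single k 1)) (Pi.single i 1) (Pi.single j 1)) / 2 := by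
  have : (fun y => herm (a y) i j) = fun y => HL (Pi.single i 1) (Pi.single j 1) (a y) :=
    funext fun y => (HL_apply _ _ _).symm
  rw [this, dz, fderiv_clm _ ha, fderiv_clm _ ha, HL_apply, HL_apply, single_I]

theorem inv_fderiv {a : Cm 2 → AltV 2} {z : Cm 2} (ha : DifferentiableAt ℝ a z)
    (h : ∀ᶠ y in 𝓝 z, Inv (a y)) (t : Cm 2) : Inv (fderiv ℝ a z t) := by
  intro u v
  have h1 : (fun y => evV ![I • u, I • v] (a y)) =ᶠ[𝓝 z] fun y => evV ![u, v] (a y) :=
    h.mono fun y hy => hy u v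
  have h2 := congrArg (fun L : Cm 2 →L[ℝ] ℝ => L t) h1.fderiv_eq
  simp only [fderiv_clm _ ha] at h2
  exact h2

theorem Inv.swap {A : AltV 2} (h : Inv A) (u v : Cm 2) : A ![I • u, v] = -A ![u, I • v] := by
  obtain ⟨a1, a2⟩ := h.comp
  rw [altV_coord, altV_coord, a1, a2]
  simp
  ring

theorem closed_herm {a : Cm 2 → AltV 2} {z : Cm 2} (ha : DifferentiableAt ℝ a z)
    (h : ∀ᶠ y in 𝓝 z, Inv (a y)) (hc : extDeriv a z = 0) (i j k : Fin 2) :
    dz k (fun y => herm (a y) i j) z = dz i (fun y => herm (a y) k j) z := by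
  rw [dz_herm ha, dz_herm ha]
  have hi := inv_fderiv ha h
  have cl : ∀ u v w, fderiv ℝ a z u ![v, w] - fderiv ℝ a z v ![u, w] + fderiv ℝ a z w ![u, v] = 0 :=
    fun u v w => by rw [← extD_two, hc]; rfl
  generalize (Pi.single k 1 : Cm 2) = p
  generalize (Pi.single i 1 : Cm 2) = q
  generalize (Pi.single j 1 : Cm 2) = c
  have h1 := cl p q (I • c)
  have h2 := cl (I • p) (I • q) (I • c)
  have h3 := cl p q c
  have h4 := cl (I • p) (I • q) c
  rw [hi, hi, hi] at h2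
  rw [(hi _).swap q c, (hi _).swap p c, hi] at h4
  apply Complex.ext
  · simp [HA]
    linarith
  · simp [HA]
    linarith

/-- multiplication by `I` -/
def mulI : Cm 2 →L[ℝ] Cm 2 := I • ContinuousLinearMap.id ℝ (Cm 2)

theorem mulI_apply (u : Cm 2) : mulI u = I • u := rfl

/-- a linear form as a one-form -/
def oneV : (Cm 2 →L[ℝ] ℝ) →L[ℝ] AltV 1 :=
  (ContinuousAlternatingMap.ofSubsingletonLIE (𝕜 := ℝ) (E := Cm 2) (F := ℝ)
    (0 : Fin 1)).toContinuousLinearEquiv.toContinuousLinearMap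

theorem oneV_apply (a : Cm 2 →L[ℝ] ℝ) (v : Fin 1 → Cm 2) : oneV a v = a (v 0) := rfl

/-- `a ↦ -(1/2) a ∘ I` -/
def dcL : (Cm 2 →L[ℝ] ℝ) →L[ℝ] AltV 1 :=
  (-(1 / 2) : ℝ) • oneV.comp ((ContinuousLinearMap.compL ℝ (Cm 2) (Cm 2) ℝ).flip mulI)

theorem dcL_apply (a : Cm 2 →L[ℝ] ℝ) (v : Cm 2) : dcL a ![v] = -(1 / 2) * a (I • v) := rfl

section ddc
variable {f : Cm 2 → ℝ} {z : Cm 2} (hf : ContDiffAt ℝ ∞ f z)
include hf

theorem diff_fderiv : DifferentiableAt ℝ (fderiv ℝ f) z :=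
  (hf.fderiv_right (m := 1) (by norm_cast)).differentiableAt (by simp)

theorem ddc_apply (u v : Cm 2) : extDeriv (fun y => dcL (fderiv ℝ f y)) z ![u, v] =
    -(1 / 2) * (fderiv ℝ (fderiv ℝ f) z u (I • v) - fderiv ℝ (fderiv ℝ f) z v (I • u)) := by
  rw [extD_one, fderiv_clm _ (diff_fderiv hf), fderiv_clm _ (diff_fderiv hf), dcL_apply, dcL_apply]
  ring

theorem snd_symm (u v : Cm 2) : fderiv ℝ (fderiv ℝ f) z u v = fderiv ℝ (fderiv ℝ f) z v u :=
  (hf.isSymmSndFDerivAt (by simp; norm_cast)).eq u v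

theorem inv_ddc : Inv (extDeriv (fun y => dcL (fderiv ℝ f y)) z) := by
  intro u v
  rw [ddc_apply hf, ddc_apply hf, smul_smul, smul_smul, I_mul_I, neg_one_smul, neg_one_smul,
    map_neg, map_neg, snd_symm hf (I • u) v, snd_symm hf (I • v) u]
  ring

theorem herm_ddc : herm (extDeriv (fun y => dcL (fderiv ℝ f y)) z) = cHess f z := by
  ext j k
  have h1 : ∀ᶠ y in 𝓝 z, DifferentiableAt ℝ f y :=
    ((hf.of_le (m := 1) (by norm_cast)).eventually (by simp)).mono fun y hy =>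
      hy.differentiableAt (by simp)
  let L : (Cm 2 →L[ℝ] ℝ) →L[ℝ] ℂ := (1 / 2 : ℂ) •
    (ofRealCLM.comp (ContinuousLinearMap.apply ℝ ℝ (Pi.single k 1 : Cm 2)) +
      I • ofRealCLM.comp (ContinuousLinearMap.apply ℝ ℝ (I • Pi.single k 1 : Cm 2)))
  have hL : ∀ a, L a = ((a (Pi.single k 1) : ℝ) + I * (a (I • Pi.single k 1) : ℝ)) / 2 := by
    intro a
    simp only [L, ContinuousLinearMap.smul_apply, ContinuousLinearMap.add_apply,
      ContinuousLinearMap.comp_apply, ContinuousLinearMap.apply_apply, ofRealCLM_apply, smul_eq_mul]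
    ring
  have h2 : dzb k (fun y => (f y : ℂ)) =ᶠ[𝓝 z] fun y => L (fderiv ℝ f y) := by
    filter_upwards [h1] with y hy
    have h3 : ∀ u, fderiv ℝ (fun y => (f y : ℂ)) y u = (fderiv ℝ f y u : ℝ) :=
      fun u => fderiv_clm ofRealCLM hy u
    rw [dzb, h3, h3, hL, single_I]
  simp only [cHess, Matrix.of_apply, herm, HA]
  rw [dz, h2.fderiv_eq, fderiv_clm _ (diff_fderiv hf), fderiv_clm _ (diff_fderiv hf), hL, hL,
    ddc_apply hf, ddc_apply hf, single_I, smul_smul, I_mul_I, neg_one_smul, map_neg,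
    snd_symm hf (I • Pi.single k 1) (I • Pi.single j 1),
    snd_symm hf (Pi.single k 1) (I • Pi.single j 1)]
  apply Complex.ext <;> simp <;> ring

end ddc

theorem hol_of_lin {f : Cm 2 → Cm 2} {z : Cm 2} (hf : DifferentiableAt ℝ f z)
    (h : ∀ v, fderiv ℝ f z (I • v) = I • fderiv ℝ f z v) : DifferentiableAt ℂ f z := by
  rw [differentiableAt_iff_restrictScalars ℝ hf]
  refine ⟨{ toFun := fderiv ℝ f z
            map_add' := map_add _
            map_smul' := fun c v => ?_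
            cont := (fderiv ℝ f z).continuous }, rfl⟩
  have e : ∀ w : Cm 2, c • w = c.re • w + c.im • (I • w) := fun w => by
    conv_lhs => rw [← re_add_im c]
    rw [add_smul, mul_smul]
    rfl
  rw [RingHom.id_apply, e v, e, map_add, map_smul, map_smul, h]

theorem dz_lin {f : Cm 2 → Cm 2} {z : Cm 2} (hf : DifferentiableAt ℝ f z)
    (h : ∀ v, fderiv ℝ f z (I • v) = I • fderiv ℝ f z v) (p i : Fin 2) :
    dz i (fun y => f y p) z = fderiv ℝ f z (Pi.single i 1) p := by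
  have k2 : ∀ v, fderiv ℝ (fun y => f y p) z v = fderiv ℝ f z v p := fun v => by
    rw [fderiv_apply hf]
    rfl
  rw [dz, k2, k2, single_I, h, Pi.smul_apply, smul_eq_mul, ← mul_assoc, I_mul_I]
  ring

end Vale.Agent.P247F
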