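import Vale.Agent.P247F.HK2
import Vale.Agent.P247M.PB
import Vale.Agent.P247Y.LocInv
import Vale.Agent.P268.Hol

/-!
# P247, block F: holomorphic charts of an almost complex structure
-/

set_option linter.all false

open scoped BigOperators ContDiff Topology ComplexOrder Matrix Manifold
open Set Complex Filter

noncomputable section

namespace Vale.Agent.P247F
open Vale.Agent.P204.T4 Vale.Agent.P204.Mfd Vale.Agent.P272.K
open Vale.Agent.P247.SCY
open Vale.Agent.P247M (pb dP)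

variable {X : Type} [TopologicalSpace X] [ChartedSpace E4 X]

/-- the differential of a chart -/
def dC (c : Chart 2 X) (x : X) : E4 →L[ℝ] Cm 2 := mfderiv (𝓡 4) 𝓘(ℝ, Cm 2) c x

/-- charts with values in `ℂ²` which are smooth in both directions -/
structure SmC (c : Chart 2 X) : Prop where
  sm : ContMDiffOn (𝓡 4) 𝓘(ℝ, Cm 2) ∞ c c.source
  sms : ContMDiffOn 𝓘(ℝ, Cm 2) (𝓡 4) ∞ c.symm c.target

/-- holomorphic charts -/
structure Adp (J : EndField X) (c : Chart 2 X) : Prop extends SmC c where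
  hol : ∀ x ∈ c.source, ∀ u : E4, dC c x (Jat J x u) = I • dC c x u

theorem pb_omv (P : Cm 2 → X) (α : HS.Form X 2) (z a b : Cm 2) :
    pb P α z ![a, b] = omv α (P z) (dP P z a) (dP P z b) := P247M.pb_two P α z a b

variable {c c' : Chart 2 X} {J : EndField X} {x : X}

theorem SmC.md (h : SmC c) (hx : x ∈ c.source) : MDifferentiableAt (𝓡 4) 𝓘(ℝ, Cm 2) c x :=
  (h.sm.contMDiffAt (c.open_source.mem_nhds hx)).mdifferentiableAt (by simp)

theorem SmC.mds (h : SmC c) {z : Cm 2} (hz : z ∈ c.target) :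
    MDifferentiableAt 𝓘(ℝ, Cm 2) (𝓡 4) c.symm z :=
  (h.sms.contMDiffAt (c.open_target.mem_nhds hz)).mdifferentiableAt (by simp)

variable [IsManifold (𝓡 4) ∞ X]

theorem SmC.dP_dC (h : SmC c) (hx : x ∈ c.source) (u : E4) : dP c.symm (c x) (dC c x u) = u :=
  P247Y.mfderiv_symm_apply c h.sm h.sms hx u

theorem SmC.dC_dP (h : SmC c) (hx : x ∈ c.source) (v : Cm 2) :
    dC c x (dP c.symm (c x) v) = v := by
  have := P247Y.mfderiv_apply_symm c h.sm h.sms (c.map_source hx) v
  unfold dC dP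
  rw [c.left_inv hx] at this
  exact this

theorem Adp.dP_I (h : Adp J c) (hx : x ∈ c.source) (v : Cm 2) :
    dP c.symm (c x) (I • v) = Jat J x (dP c.symm (c x) v) := by
  conv_lhs => rw [← h.dC_dP hx v, ← h.hol x hx]
  rw [h.dP_dC hx]

theorem pb_at (hx : x ∈ c.source) (α : HS.Form X 2) (a b : Cm 2) :
    pb c.symm α (c x) ![a, b] = omv α x (dP c.symm (c x) a) (dP c.symm (c x) b) := by
  rw [pb_omv, c.left_inv hx]

theorem trn_cd (h : SmC c) (h' : SmC c') (hx : x ∈ c.source) (hx' : x ∈ c'.source) :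
    ContDiffAt ℝ ∞ (fun z => c' (c.symm z)) (c x) := by
  have h1 := h.sms.contMDiffAt (c.open_target.mem_nhds (c.map_source hx))
  have h2 := h'.sm.contMDiffAt (c'.open_source.mem_nhds hx')
  rw [← c.left_inv hx] at h2
  exact contMDiffAt_iff_contDiffAt.1 (h2.comp (c x) h1)

theorem trn_fd (h : SmC c) (h' : SmC c') (hx : x ∈ c.source) (hx' : x ∈ c'.source) (v : Cm 2) :
    fderiv ℝ (fun z => c' (c.symm z)) (c x) v = dC c' x (dP c.symm (c x) v) := by
  have h2 := h'.md hx'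
  have h3 := mfderiv_comp_of_eq (I := 𝓘(ℝ, Cm 2)) (I' := 𝓡 4) (I'' := 𝓘(ℝ, Cm 2)) (x := c x)
    (y := x) (g := c') (f := c.symm) h2 (h.mds (c.map_source hx)) (c.left_inv hx)
  rw [mfderiv_eq_fderiv] at h3
  have h4 := DFunLike.congr_fun h3 v
  unfold dC dP
  rw [c.left_inv hx] at h4
  exact h4

theorem trn_I (h : Adp J c) (h' : Adp J c') (hx : x ∈ c.source) (hx' : x ∈ c'.source) (v : Cm 2) :
    fderiv ℝ (fun z => c' (c.symm z)) (c x) (I • v) =
      I • fderiv ℝ (fun z => c' (c.symm z)) (c x) v := by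
  rw [trn_fd h.toSmC h'.toSmC hx hx', trn_fd h.toSmC h'.toSmC hx hx', h.dP_I hx, h'.hol x hx']

theorem pb_trn (h : SmC c) (h' : SmC c') (hx : x ∈ c.source) (hx' : x ∈ c'.source)
    (α : HS.Form X 2) : pb c.symm α (c x) = (pb c'.symm α (c' x)).compContinuousLinearMap
      (fderiv ℝ (fun z => c' (c.symm z)) (c x)) := by
  ext v
  have e : v = ![v 0, v 1] := by funext i; fin_cases i <;> rfl
  rw [e, comp_apply2, pb_at hx, pb_at hx', trn_fd h h' hx hx', trn_fd h h' hx hx', h'.dP_dC hx',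
    h'.dP_dC hx']

/-- the atlas of holomorphic charts -/
@[reducible] def chOf (H : ∀ x : X, ∃ c : Chart 2 X, Adp J c ∧ x ∈ c.source) :
    ChartedSpace (Cm 2) X where
  atlas := {c | Adp J c}
  chartAt x := (H x).choose
  mem_chart_source x := (H x).choose_spec.2
  chart_mem_atlas x := (H x).choose_spec.1

theorem mf_chOf (H : ∀ x : X, ∃ c : Chart 2 X, Adp J c ∧ x ∈ c.source) :
    @IsManifold ℂ _ (Cm 2) _ _ (Cm 2) _ 𝓘(ℂ, Cm 2) ω X _ (chOf H) := by
  let _ := chOf H
  refine isManifold_of_contDiffOn _ _ _ fun c c' h h' => ?_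
  simp only [modelWithCornersSelf_coe, modelWithCornersSelf_coe_symm, Set.preimage_id,
    Set.range_id, Set.inter_univ, Function.comp_id, Function.id_comp]
  refine (P268.analyticOnNhd_of_differentiableOn (c.symm ≫ₕ c').open_source fun z hz => ?_
    ).contDiffOn_of_completeSpace
  have h1 : Adp J c := h
  have h2 : Adp J c' := h'
  have k := hol_of_lin ((trn_cd h1.toSmC h2.toSmC (c.map_target hz.1) hz.2).differentiableAt
    (by simp)) (trn_I h1 h2 (c.map_target hz.1) hz.2)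
  rw [c.right_inv hz.1] at k
  exact k.differentiableWithinAt

/-- the frame of a chart -/
def frM (c : Chart 2 X) (x : X) : M4 :=
  matL ((toE.symm : E4 →L[ℝ] V4).comp ((dP c.symm (c x)).comp (phi : V4 →L[ℝ] Cm 2)))

theorem cV_pb (hx : x ∈ c.source) (α : HS.Form X 2) :
    cV (pb c.symm α (c x)) = pull (frM c x) (cx α x) := by
  apply ext_ev
  intro v w
  rw [ev_cV, pb_at hx, ev_pull, frM, app_matL, app_matL, omv_eq]
  rfl

theorem Q_pb (μ : HS.Form X 4) (hμ : ax μ x HS.bas ≠ 0) (hx : x ∈ c.source) (α β : HS.Form X 2) :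
    Q (cV (pb c.symm α (c x))) (cV (pb c.symm β (c x))) =
      (det4 (frM c x) * ax μ x HS.bas) * HS.quot μ α β x := by
  rw [cV_pb hx, cV_pb hx, Q_pull, quot_cx]
  field_simp

theorem det_frM (h : SmC c) (hx : x ∈ c.source) : det4 (frM c x) ≠ 0 := by
  rw [frM, det_matL]
  intro h0
  obtain ⟨v, hv, hv0⟩ : ∃ v : V4, v ≠ 0 ∧ ((toE.symm : E4 →L[ℝ] V4).comp
      ((dP c.symm (c x)).comp (phi : V4 →L[ℝ] Cm 2))) v = 0 := by
    have := LinearMap.bot_lt_ker_of_det_eq_zero h0
    obtain ⟨v, h1, h2⟩ := (Submodule.ne_bot_iff _).1 this.ne'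
    exact ⟨v, h2, h1⟩
  apply hv
  have h1 : dP c.symm (c x) (phi v) = 0 := by
    have : toE.symm (dP c.symm (c x) (phi v)) = 0 := hv0
    simpa using this
  have h2 := h.dC_dP hx (phi v)
  rw [h1, map_zero] at h2
  simpa using h2.symm

theorem anti_pb (h : Adp J c) (hx : x ∈ c.source) {β : HS.Form X 2}
    (hβ : ∀ u v, omv β x (Jat J x u) (Jat J x v) = -omv β x u v) : Anti (pb c.symm β (c x)) := by
  intro u v
  rw [pb_at hx, pb_at hx, h.dP_I hx, h.dP_I hx, hβ]

theorem tames_pb (h : Adp J c) (hx : x ∈ c.source) (α : HS.Form X 2) :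
    (∀ u : Cm 2, u ≠ 0 → 0 < pb c.symm α (c x) ![u, I • u]) ↔
      ∀ v : E4, v ≠ 0 → 0 < omv α x v (Jat J x v) := by
  constructor
  · intro hp v hv
    have := hp (dC c x v) (fun h0 => hv (by rw [← h.dP_dC hx v, h0, map_zero]))
    rwa [pb_at hx, h.dP_I hx, h.dP_dC hx] at this
  · intro hp u hu
    rw [pb_at hx, h.dP_I hx]
    exact hp _ fun h0 => hu (by rw [← h.dC_dP hx u, h0, map_zero])

omit [IsManifold (𝓡 4) ∞ X] in
theorem ev_target (hx : x ∈ c.source) {P : Cm 2 → Prop} (h : ∀ y ∈ c.source, P (c y)) :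
    ∀ᶠ z in 𝓝 (c x), P z := by
  filter_upwards [c.open_target.mem_nhds (c.map_source hx)] with z hz
  have := h _ (c.map_target hz)
  rwa [c.right_inv hz] at this

end Vale.Agent.P247F
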