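import Vale.Agent.P247F.HK3
import Vale.Agent.P247F.Chain
import Vale.Agent.P301Z.An.All

/-!
# P247, block F: existence of holomorphic charts for an integrable pair
-/

set_option linter.all false

open scoped BigOperators ContDiff Topology ComplexOrder Matrix Manifold
open Set Complex Filter

noncomputable section

namespace Vale.Agent.P247F
open Vale.Agent.P204.T4 Vale.Agent.P204.Mfd Vale.Agent.P272.K
open Vale.Agent.P247.SCY
open Vale.Agent.P247M (pb dP)

/-- complex valued real bilinear maps -/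
abbrev BC := Cm 2 →L[ℝ] Cm 2 →L[ℝ] ℂ

/-- a one-form as a complex valued linear map -/
def unC (m : ℝ →L[ℝ] ℂ) : AltV 1 →L[ℝ] (Cm 2 →L[ℝ] ℂ) :=
  (ContinuousLinearMap.compL ℝ (Cm 2) ℝ ℂ m).comp
    (ContinuousAlternatingMap.ofSubsingletonLIE (𝕜 := ℝ) (E := Cm 2) (F := ℝ)
      (0 : Fin 1)).symm.toContinuousLinearEquiv.toContinuousLinearMap

theorem unC_apply (m : ℝ →L[ℝ] ℂ) (a : AltV 1) (v : Cm 2) : unC m a v = m (a ![v]) := by
  have h := (ContinuousAlternatingMap.ofSubsingletonLIE (𝕜 := ℝ) (E := Cm 2) (F := ℝ)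
    (0 : Fin 1)).apply_symm_apply a
  conv_rhs => rw [← h]
  rfl

/-- a two-form as a complex valued bilinear map -/
def bilC (m : ℝ →L[ℝ] ℂ) : AltV 2 →L[ℝ] BC :=
  (ContinuousLinearMap.compL ℝ (Cm 2) (AltV 1) (Cm 2 →L[ℝ] ℂ) (unC m)).comp
    (ContinuousAlternatingMap.curryLeftLI (𝕜 := ℝ) (E := Cm 2) (F := ℝ)
      (n := 1)).toContinuousLinearMap

theorem bilC_apply (m : ℝ →L[ℝ] ℂ) (A : AltV 2) (u v : Cm 2) : bilC m A u v = m (A ![u, v]) :=
  unC_apply m (A.curryLeft u) v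

theorem altV_swap (A : AltV 2) (u v : Cm 2) : A ![u, v] = -A ![v, u] := by
  rw [altV_eq, altV_eq, ev_antisymm]

/-- `b + i ε g` -/
def omC (ε : ℝ) (p : AltV 2 × AltV 2) : BC :=
  bilC ofRealCLM p.1 + bilC ((I * ε) • ofRealCLM) p.2

theorem omC_apply (ε : ℝ) (p : AltV 2 × AltV 2) (u v : Cm 2) :
    omC ε p u v = (p.1 ![u, v] : ℝ) + I * ε * (p.2 ![u, v] : ℝ) := by
  have h : omC ε p u v = bilC ofRealCLM p.1 u v + bilC ((I * ε) • ofRealCLM) p.2 u v := rfl
  rw [h, bilC_apply, bilC_apply]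
  rfl

theorem bilC_cd (m : ℝ →L[ℝ] ℂ) : ContDiff ℝ ∞ (fun A => bilC m A) :=
  ContinuousLinearMap.contDiff (𝕜 := ℝ) (E := AltV 2) (F := BC) (bilC m)

theorem omC_cd (ε : ℝ) : ContDiff ℝ ∞ (omC ε) :=
  ((bilC_cd _).comp contDiff_fst).add ((bilC_cd _).comp contDiff_snd)

theorem omC_fd (ε : ℝ) {b g : Cm 2 → AltV 2} {z : Cm 2} (d1 : DifferentiableAt ℝ b z)
    (d2 : DifferentiableAt ℝ g z) (t : Cm 2) :
    fderiv ℝ (fun y => omC ε (b y, g y)) z t = omC ε (fderiv ℝ b z t, fderiv ℝ g z t) := by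
  have e1 := fderiv_clm (E := AltV 2) (F := BC) (bilC ofRealCLM) d1 t
  have e2 := fderiv_clm (E := AltV 2) (F := BC) (bilC ((I * ε) • ofRealCLM)) d2 t
  have e3 := fderiv_fun_add (((bilC_cd ofRealCLM).differentiable (by simp) _).comp z d1)
    (((bilC_cd ((I * ε) • ofRealCLM)).differentiable (by simp) _).comp z d2)
  have e4 := DFunLike.congr_fun e3 t
  unfold omC
  rw [← e1, ← e2]
  exact e4

/-- local holomorphic coordinates for a closed complex two-form -/
theorem exists_W {b g : Cm 2 → AltV 2} {z0 : Cm 2} {ε : ℝ}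
    (hs : ∀ᶠ z in 𝓝 z0, ContDiffAt ℝ ∞ b z ∧ ContDiffAt ℝ ∞ g z ∧ extDeriv b z = 0 ∧
      extDeriv g z = 0 ∧ ∀ u, ∃ u', ∀ v, b z ![u', v] = -ε * g z ![u, v] ∧
        g z ![u', v] = ε * b z ![u, v]) (hε : ε * ε = 1)
    (hn : ∀ u, (∀ v, b z0 ![u, v] = 0) → u = 0) :
    ∃ W : Cm 2 → Cm 2, ∀ᶠ z in 𝓝 z0, ContDiffAt ℝ ∞ W z ∧ Function.Bijective (fderiv ℝ W z) ∧
      ∀ u u', (∀ v, b z ![u', v] = -ε * g z ![u, v] ∧ g z ![u', v] = ε * b z ![u, v]) →
        fderiv ℝ W z u' = I • fderiv ℝ W z u := by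
  have key : ∀ z u u', (∀ v, b z ![u', v] = -ε * g z ![u, v] ∧ g z ![u', v] = ε * b z ![u, v]) →
      ∀ v, omC ε (b z, g z) u' v = I * omC ε (b z, g z) u v := by
    intro z u u' h v
    rw [omC_apply, omC_apply, (h v).1, (h v).2]
    have h1 : (ε : ℂ) * ε = 1 := by exact_mod_cast hε
    push_cast
    linear_combination (I * (b z ![u, v] : ℝ)) * h1 - (ε * (g z ![u, v] : ℝ)) * I_mul_I
  have t : Tendsto (Prod.snd : ℂ × Cm 2 → Cm 2) (𝓝 (0, z0)) (𝓝 z0) := continuousAt_snd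
  obtain ⟨W, h1, h2⟩ := P301Z.An.cnn ℂ (Cm 2) (fun q => omC ε (b q.2, g q.2)) (0, z0)
    ((t.eventually hs).mono fun q hq => (omC_cd ε).contDiffAt.comp q
      ((hq.1.comp q contDiffAt_snd).prodMk (hq.2.1.comp q contDiffAt_snd)))
    (fun u hu => hn u fun v => by
      have := congrArg Complex.re (hu v)
      rw [omC_apply] at this
      simpa using this) (by
      filter_upwards [t.eventually hs] with q hq
      refine ⟨fun u v => ?_, fun u v w => ?_, fun u => (hq.2.2.2.2 u).imp fun u' h => key _ _ _ h,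
        fun u v => differentiableAt_const _⟩
      · rw [omC_apply, omC_apply, altV_swap _ u v, altV_swap (g q.2) u v]
        push_cast
        ring
      · have d1 := hq.1.differentiableAt (by simp)
        have d2 := hq.2.1.differentiableAt (by simp)
        have e : ∀ t, P301Z.An.Dy (fun q : ℂ × Cm 2 => omC ε (b q.2, g q.2)) q t =
            omC ε (fderiv ℝ b q.2 t, fderiv ℝ g q.2 t) := fun t => omC_fd ε d1 d2 t
        have c1 := extD_two b q.2 u v w
        have c2 := extD_two g q.2 u v w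
        rw [hq.2.2.1] at c1
        rw [hq.2.2.2.1] at c2
        rw [e, e, e, omC_apply, omC_apply, omC_apply, altV_swap _ w u,
          altV_swap (fderiv ℝ g q.2 v) w u]
        have c1' := congrArg (fun r : ℝ => (r : ℂ)) c1
        have c2' := congrArg (fun r : ℝ => (r : ℂ)) c2
        simp only [ContinuousAlternatingMap.coe_zero, Pi.zero_apply] at c1' c2'
        push_cast at c1' c2' ⊢
        linear_combination -c1' - I * ε * c2')
  have t' : Tendsto (fun z : Cm 2 => ((0 : ℂ), z)) (𝓝 z0) (𝓝 (0, z0)) :=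
    (Continuous.prodMk_right 0).continuousAt
  refine ⟨fun z => W (0, z), ?_⟩
  filter_upwards [t'.eventually h1, t'.eventually h2] with z hz hz'
  exact ⟨hz.comp z (contDiffAt_const.prodMk contDiffAt_id), hz'.1,
    fun u u' h => hz'.2.1 u u' (key z u u' h)⟩

variable {X : Type} [TopologicalSpace X] [ChartedSpace E4 X]

/-- `β + i ε γ` has type `(2, 0)` at `x` -/
def Rel (J : EndField X) (β γ : HS.Form X 2) (ε : ℝ) (x : X) : Prop := ∀ u v : E4,
  omv β x (Jat J x u) v = -ε * omv γ x u v ∧ omv γ x (Jat J x u) v = ε * omv β x u v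

theorem rel_or {μ : HS.Form X 4} {α β γ : HS.Form X 2} (h : TriPos μ α β γ)
    (h1 : ∀ x, HS.quot μ β β x = HS.quot μ γ γ x) (h2 : ∀ x, HS.quot μ β γ x = 0) (x : X) :
    ∃ ε : ℝ, ε * ε = 1 ∧ Rel (Jf α β γ) β γ ε x := by
  have hd := triPos_iff.1 h x
  have hs : (ax μ x HS.bas)⁻¹ ≠ 0 := by
    intro h0
    have := hd 1 0 0 (Or.inl one_ne_zero)
    rw [h0, zero_mul] at this
    exact lt_irrefl _ this
  have q1 : Q (cx γ x) (cx γ x) = Q (cx β x) (cx β x) := by
    have := h1 x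
    rw [quot_cx, quot_cx] at this
    exact (mul_left_cancel₀ hs this).symm
  have q2 : Q (cx β x) (cx γ x) = 0 := by
    have := h2 x
    rw [quot_cx] at this
    exact (mul_eq_zero.1 this).resolve_left hs
  have q3 : Q (cx β x) (cx β x) ≠ 0 := QBB_ne hd.dsc_pos
  have q4 : Real.sqrt (dsc (cx β x) (cx γ x)) = |Q (cx β x) (cx β x)| := by
    rw [dsc, q1, q2, ← Real.sqrt_sq_eq_abs]
    congr 1
    ring
  have q5 : |Q (cx β x) (cx β x)| ≠ 0 := abs_ne_zero.2 q3
  refine ⟨sg (cx α x) (cx β x) (cx γ x) * (Q (cx β x) (cx β x) / |Q (cx β x) (cx β x)|), ?_,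
    fun u v => ?_⟩
  · have e1 := sg_sq (cx α x) (cx β x) (cx γ x)
    have e2 : (Q (cx β x) (cx β x) / |Q (cx β x) (cx β x)|) *
        (Q (cx β x) (cx β x) / |Q (cx β x) (cx β x)|) = 1 := by
      field_simp
      exact (sq_abs _).symm
    linear_combination (Q (cx β x) (cx β x) / |Q (cx β x) (cx β x)|) ^ 2 * e1 + e2
  · simp only [omv_eq, Jat_Jf, toE.symm_apply_apply, tam, app_smulM, ev_smul_left, ev_Jm, ev_Jm',
      q1, q2, q4]
    constructor <;> ring

variable [IsManifold (𝓡 4) ∞ X]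

theorem loc_omv (α : HS.Form X 2) (e : OpenPartialHomeomorph X E4) (y u v : E4) :
    HS.loc e α y ![u, v] = omv α (e.symm y) (dsym e y u) (dsym e y v) :=
  comp_apply2 (bx α (e.symm y)) (dsym e y) u v

theorem rel_ev {J : EndField X} (hJ : AlmostComplex J) {β γ : HS.Form X 2} (sβ : HS.Smooth β)
    (sγ : HS.Smooth γ) (h : ∀ x, ∃ ε : ℝ, ε * ε = 1 ∧ Rel J β γ ε x) {x0 : X} {ε : ℝ}
    (hε : ε * ε = 1) (h0 : Rel J β γ ε x0) (hn : ∃ u v, omv β x0 u v ≠ 0) :
    ∀ᶠ x in 𝓝 x0, Rel J β γ ε x := by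
  set e := chartAt E4 x0 with he
  have hea : e ∈ atlas E4 X := chart_mem_atlas E4 x0
  have hx0 : x0 ∈ e.source := mem_chart_source E4 x0
  have hy0 := e.map_source hx0
  obtain ⟨u0, v0, hn⟩ := hn
  set u := dch e x0 u0
  set v := dch e x0 v0
  have hJe : ∀ y ∈ e.target, HS.loc e γ y ![endRep e J y u, v] =
      omv γ (e.symm y) (Jat J (e.symm y) (dsym e y u)) (dsym e y v) := by
    intro y hy
    rw [loc_omv]
    congr 1
    exact dsym_dch hea hy _
  let G : E4 → ℝ := fun y => ε * HS.loc e γ y ![endRep e J y u, v] * HS.loc e β y ![u, v]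
  have hG : ContinuousAt G (e x0) := by
    have a1 := (sβ e hea).continuousOn.continuousAt (e.open_target.mem_nhds hy0)
    have a2 := (sγ e hea).continuousOn.continuousAt (e.open_target.mem_nhds hy0)
    have a3 := (hJ.smooth e hea).continuousOn.continuousAt (e.open_target.mem_nhds hy0)
    have a4 : ContinuousAt (fun y => (![endRep e J y u, v] : Fin 2 → E4)) (e x0) := by
      refine continuousAt_pi.2 fun i => ?_
      fin_cases i
      · exact a3.clm_apply continuousAt_const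
      · exact continuousAt_const
    have a5 : ContinuousAt (fun y => HS.loc e γ y ![endRep e J y u, v]) (e x0) :=
      (continuous_eval (F := E4 [⋀^Fin 2]→L[ℝ] ℝ)).continuousAt.comp (a2.prodMk a4)
    have a6 : ContinuousAt (fun y => HS.loc e β y ![u, v]) (e x0) :=
      (continuous_eval (F := E4 [⋀^Fin 2]→L[ℝ] ℝ)).continuousAt.comp (a1.prodMk continuousAt_const)
    exact (continuousAt_const.mul a5).mul a6
  have hGe : ∀ x ∈ e.source, ∀ δ, Rel J β γ δ x →
      G (e x) = ε * δ * (HS.loc e β (e x) ![u, v]) ^ 2 := by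
    intro x hx δ hδ
    simp only [G]
    rw [hJe _ (e.map_source hx), loc_omv, e.left_inv hx, (hδ _ _).2]
    ring
  have hpos : 0 < G (e x0) := by
    rw [hGe x0 hx0 ε h0, hε, one_mul, loc_omv]
    have b1 := dsym_dch hea hy0 u0
    have b2 := dsym_dch hea hy0 v0
    rw [e.left_inv hx0] at b1 b2 ⊢
    rw [b1, b2]
    positivity
  filter_upwards [(hG.comp (e.continuousAt hx0)).eventually (lt_mem_nhds hpos),
    e.open_source.mem_nhds hx0] with x hx hxs
  obtain ⟨δ, hδ, hr⟩ := h x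
  have h1 : 0 < G (e x) := hx
  rw [hGe x hxs δ hr] at h1
  have h2 : 0 < ε * δ := by
    by_contra hcon
    push Not at hcon
    have := mul_nonpos_of_nonpos_of_nonneg hcon (sq_nonneg (HS.loc e β (e x) ![u, v]))
    linarith
  have h3 : δ = ε := by
    have h4 : (δ - ε) * (δ + ε) = 0 := by linear_combination hδ - hε
    rcases mul_eq_zero.1 h4 with h5 | h5
    · linarith
    · have h6 : δ = -ε := by linarith
      rw [h6] at h2
      linarith
  rwa [h3] at hr

theorem exists_smC (x : X) : ∃ k : Chart 2 X, SmC k ∧ x ∈ k.source := by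
  set e := chartAt E4 x
  let ψ : E4 ≃L[ℝ] Cm 2 := toE.symm.trans phi
  refine ⟨e ≫ₕ ψ.toHomeomorph.toOpenPartialHomeomorph, ⟨?_, ?_⟩, mem_chart_source E4 x, trivial⟩
  · exact ψ.contDiff.contMDiff.comp_contMDiffOn ((P247Y.chart_sm x).mono fun y hy => hy.1)
  · exact (P247Y.chart_symm_sm x).comp ψ.symm.contDiff.contMDiff.contMDiffOn fun y hy => hy.2

theorem exists_adp {μ : HS.Form X 4} {α β γ : HS.Form X 2} (h : TriPos μ α β γ)
    (sα : HS.Smooth α) (hβ : P247X.SC β) (hγ : P247X.SC γ)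
    (h1 : ∀ x, HS.quot μ β β x = HS.quot μ γ γ x) (h2 : ∀ x, HS.quot μ β γ x = 0) (x0 : X) :
    ∃ c : Chart 2 X, Adp (Jf α β γ) c ∧ x0 ∈ c.source := by
  obtain ⟨k, hk, hx0⟩ := exists_smC x0
  obtain ⟨ε, hε, hr0⟩ := rel_or h h1 h2 x0
  have hnd : ∀ u : E4, (∀ v, omv β x0 u v = 0) → u = 0 := by
    intro u hu
    have := nondeg (QBB_ne (triPos_iff.1 h x0).dsc_pos) (u := toE.symm u) (u' := 0) fun w => by
      have h3 := hu (toE w)
      rw [omv_eq, toE.symm_apply_apply] at h3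
      rw [h3]
      simp [ev_eq]
    simpa using this
  have hr := rel_ev (Jf_almostComplex (defAt_of_triPos h) sα hβ.1 hγ.1) hβ.1 hγ.1
    (rel_or h h1 h2) hε hr0 (by
      by_contra hcon
      push Not at hcon
      have := hnd (HS.bas 0) (hcon _)
      have h3 := congrArg (fun u : E4 => u 0) this
      simp [HS.bas] at h3)
  set J := Jf α β γ with hJ
  have hrel : ∀ x ∈ k.source, Rel J β γ ε x → ∀ u : E4, ∀ v,
      pb k.symm β (k x) ![dC k x (Jat J x u), v] = -ε * pb k.symm γ (k x) ![dC k x u, v] ∧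
      pb k.symm γ (k x) ![dC k x (Jat J x u), v] = ε * pb k.symm β (k x) ![dC k x u, v] := by
    intro x hx hr u v
    simp only [pb_at hx, hk.dP_dC hx]
    exact hr _ _
  have hz : ∀ᶠ z in 𝓝 (k x0), z ∈ k.target ∧ Rel J β γ ε (k.symm z) := by
    refine Eventually.and (k.open_target.mem_nhds (k.map_source hx0)) ?_
    exact (k.continuousAt_symm (k.map_source hx0)).eventually (by rwa [k.left_inv hx0])
  obtain ⟨W, hW⟩ := exists_W (b := pb k.symm β) (g := pb k.symm γ) (z0 := k x0) (ε := ε) (by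
    filter_upwards [hz] with z ⟨hz1, hz2⟩
    refine ⟨(P247M.contDiffOn_pb k.open_target hk.sms hβ.1).contDiffAt (k.open_target.mem_nhds hz1),
      (P247M.contDiffOn_pb k.open_target hk.sms hγ.1).contDiffAt (k.open_target.mem_nhds hz1),
      P247M.extDeriv_pb_sc k.open_target hk.sms hβ hz1,
      P247M.extDeriv_pb_sc k.open_target hk.sms hγ hz1, fun u => ?_⟩
    have h3 := hrel _ (k.map_target hz1) hz2 (dP k.symm (k (k.symm z)) u)
    rw [hk.dC_dP (k.map_target hz1), k.right_inv hz1] at h3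
    exact ⟨_, h3⟩) hε (fun u hu => by
      have := hnd (dP k.symm (k x0) u) fun v => by
        have h3 := hu (dC k x0 v)
        rwa [pb_at hx0, hk.dP_dC hx0] at h3
      rw [← hk.dC_dP hx0 u, this, map_zero])
  obtain ⟨s, hs, so, xs⟩ := eventually_nhds_iff.1
    ((((k.continuousAt hx0).eventually hW).and hr).and (k.open_source.mem_nhds hx0))
  have hf : ContMDiffOn (𝓡 4) 𝓘(ℝ, Cm 2) ∞ (fun x => W (k x)) s := fun x hx =>
    ((hs x hx).1.1.1.contMDiffAt.comp x
      (hk.sm.contMDiffAt (k.open_source.mem_nhds (hs x hx).2))).contMDiffWithinAt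
  have hd : ∀ x ∈ s, ∀ u : E4, (mfderiv (𝓡 4) 𝓘(ℝ, Cm 2) (fun x => W (k x)) x : E4 →L[ℝ] Cm 2) u =
      fderiv ℝ W (k x) (dC k x u) := by
    intro x hx u
    have h3 := mfderiv_comp (I := 𝓡 4) (I' := 𝓘(ℝ, Cm 2)) (I'' := 𝓘(ℝ, Cm 2)) x (g := W) (f := k)
      ((hs x hx).1.1.1.contMDiffAt.mdifferentiableAt (by simp)) (hk.md (hs x hx).2)
    rw [mfderiv_eq_fderiv] at h3
    exact DFunLike.congr_fun h3 u
  obtain ⟨c, c1, c2, c3, c4⟩ := P247Y.locInv so hf xs (by
    have e : (mfderiv (𝓡 4) 𝓘(ℝ, Cm 2) (fun x => W (k x)) x0 : E4 → Cm 2) =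
        fderiv ℝ W (k x0) ∘ dC k x0 := funext (hd x0 xs)
    have h3 : Function.Bijective (fderiv ℝ W (k x0) ∘ dC k x0) :=
      (hs x0 xs).1.1.2.1.comp (P247Y.mfderiv_bij k hk.sm hk.sms hx0)
    rw [← e] at h3
    exact h3)
  have ec : (c : X → Cm 2) = fun x => W (k x) := funext c3
  refine ⟨c, ⟨⟨by rw [ec]; exact hf.mono c2, c4⟩, fun x hx u => ?_⟩, c1⟩
  have h3 := hs x (c2 hx)
  unfold dC
  rw [ec]
  refine (hd x (c2 hx) _).trans ((h3.1.1.2.2 _ _ (hrel x h3.2 h3.1.2 u)).trans ?_)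
  exact congrArg (fun v : Cm 2 => I • v) (hd x (c2 hx) u).symm

end Vale.Agent.P247F
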