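import Vale.Agent.P247F.HK4
import Vale.Agent.P299.H835.Yau

/-!
# P247, block F: the Calabi-Yau theorem for an integrable pair
-/

set_option linter.all false

open scoped BigOperators ContDiff Topology ComplexOrder Matrix Manifold
open Set Complex Filter

noncomputable section

namespace Vale.Agent.P247F
open Vale.Agent.P204.T4 Vale.Agent.P204.Mfd Vale.Agent.P272.K
open Vale.Agent.P247.SCY
open Vale.Agent.P247M (pb dP SmF RF rf hs one)
open Vale.Agent.P267.H175 (dF SmAt)

section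
variable {X : Type} [TopologicalSpace X] [ChartedSpace E4 X]

/-- the differential of a function -/
def Du (u : X → ℝ) (x : X) : E4 →L[ℝ] ℝ := mfderiv (𝓡 4) 𝓘(ℝ, ℝ) u x

/-- the one-form `-(1/2) du ∘ J` -/
def dcX (J : EndField X) (u : X → ℝ) : HS.Form X 1 :=
  hs fun x => one ((-(1 / 2) : ℝ) • (Du u x).comp (Jat J x))

theorem Du_comp {V : Type*} [NormedAddCommGroup V] [NormedSpace ℝ V] {u : X → ℝ} {P : V → X} {z : V}
    (hu : SmF u (P z)) (hP : MDifferentiableAt 𝓘(ℝ, V) (𝓡 4) P z) (v : V) :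
    fderiv ℝ (fun y => u (P y)) z v = Du u (P z) (dP P z v) := by
  have h3 := mfderiv_comp (I := 𝓘(ℝ, V)) (I' := 𝓡 4) (I'' := 𝓘(ℝ, ℝ)) z (g := u) (f := P)
    (hu.mdifferentiableAt (by simp)) hP
  rw [mfderiv_eq_fderiv] at h3
  exact DFunLike.congr_fun h3 v

variable [IsManifold (𝓡 4) ∞ X] {J : EndField X} {u : X → ℝ} {c : Chart 2 X} {x : X}

theorem smooth_dcX (hJ : AlmostComplex J) (hu : ∀ x, SmF u x) : HS.Smooth (dcX J u) := by
  intro e he y hy
  have h1 : ∀ y ∈ e.target, HS.loc e (dcX J u) y =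
      one ((-(1 / 2) : ℝ) • (fderiv ℝ (fun z => u (e.symm z)) y).comp (endRep e J y)) := by
    intro y hy
    refine P247M.alt1_ext fun v => ?_
    have h2 := Du_comp (P := e.symm) (hu (e.symm y)) (mdiff_symm he hy) (endRep e J y v)
    have h3 : dP e.symm y (endRep e J y v) = Jat J (e.symm y) (dsym e y v) := dsym_dch he hy _
    rw [h3] at h2
    show -(1 / 2) * Du u (e.symm y) (Jat J (e.symm y) (dsym e y v)) =
      -(1 / 2) * fderiv ℝ (fun z => u (e.symm z)) y (endRep e J y v)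
    rw [h2]
  have h4 : ContDiffAt ℝ ∞ (fun z => u (e.symm z)) y := by
    have := (hu (e.symm y)).chart he (e.map_target hy)
    rwa [e.right_inv hy] at this
  have h5 := (hJ.smooth e he).contDiffAt (e.open_target.mem_nhds hy)
  have h6 := one.contDiff.contDiffAt.comp y
    (((h4.fderiv_right (m := ∞) (by simp)).clm_comp h5).const_smul (-(1 / 2) : ℝ))
  exact h6.contDiffWithinAt.congr h1 (h1 y hy)

theorem pb_dcX (h : Adp J c) (hu : ∀ x, SmF u x) (hx : x ∈ c.source) :
    pb c.symm (dcX J u) (c x) = dcL (fderiv ℝ (fun z => u (c.symm z)) (c x)) := by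
  ext v
  have e : v = ![v 0] := by funext i; fin_cases i; rfl
  rw [e, dcL_apply, Du_comp (hu _) (h.mds (c.map_source hx)), h.dP_I hx]
  show -(1 / 2) * Du u (c.symm (c x)) (Jat J (c.symm (c x)) (dP c.symm (c x) (v 0))) = _
  rw [c.left_inv hx]

theorem cd_symm (h : SmC c) {f : X → ℝ} (hf : SmF f x) (hx : x ∈ c.source) :
    ContDiffAt ℝ ∞ (fun z => f (c.symm z)) (c x) := by
  have h1 := h.sms.contMDiffAt (c.open_target.mem_nhds (c.map_source hx))
  rw [← c.left_inv hx] at hf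
  exact contMDiffAt_iff_contDiffAt.1 (ContMDiffAt.comp (c x) hf h1)

theorem smF_of_symm (h : SmC c) {f : X → ℝ} (hx : x ∈ c.source)
    (hf : ContDiffAt ℝ ∞ (fun z => f (c.symm z)) (c x)) : SmF f x := by
  refine (hf.contMDiffAt.comp x (h.sm.contMDiffAt (c.open_source.mem_nhds hx))).congr_of_eventuallyEq ?_
  filter_upwards [c.open_source.mem_nhds hx] with y hy
  simp only [Function.comp_apply, c.left_inv hy]

theorem pb_ddc (hJ : AlmostComplex J) (h : Adp J c) (hu : ∀ x, SmF u x) (hx : x ∈ c.source) :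
    pb c.symm (hs (dF (rf (dcX J u)))) (c x) =
      extDeriv (fun y => dcL (fderiv ℝ (fun z => u (c.symm z)) y)) (c x) := by
  rw [← P247M.extDeriv_pb c.open_target h.sms (c.map_source hx)
    (P247M.smooth_iff.1 (smooth_dcX hJ hu) _)]
  exact Filter.EventuallyEq.extDeriv_eq (ev_target hx
    (P := fun z => pb c.symm (dcX J u) z = dcL (fderiv ℝ (fun z => u (c.symm z)) z))
    fun y hy => pb_dcX h hu hy)

end

theorem yau_step {X : Type} [P247X.Cl4 X] {μ : HS.Form X 4} (hμ : HS.Volume μ)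
    {α β γ : HS.Form X 2} (h : TriPos μ α β γ) (hα : P247X.SC α) (hβ : P247X.SC β)
    (hγ : P247X.SC γ) (h1 : ∀ x, HS.quot μ β β x = HS.quot μ γ γ x)
    (h2 : ∀ x, HS.quot μ β γ x = 0) (h3 : ∀ x, HS.quot μ α β x = 0)
    (h4 : ∀ x, HS.quot μ α γ x = 0) :
    ∃ θ : HS.Form X 2, P247X.SC θ ∧ HS.Exact θ ∧ Tames (fun x => α x + θ x) (Jf α β γ) ∧
      (∀ x, HS.quot μ (fun x => α x + θ x) β x = 0) ∧
      (∀ x, HS.quot μ (fun x => α x + θ x) γ x = 0) ∧
      ∃ κ : ℝ, ∀ x, HS.quot μ (fun x => α x + θ x) (fun x => α x + θ x) x =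
        κ * HS.quot μ β β x := by
  have hdef := defAt_of_triPos h
  have H := exists_adp h hα.1 hβ hγ h1 h2
  set J := Jf α β γ with hJd
  have hJ : AlmostComplex J := Jf_almostComplex hdef hα.1 hβ.1 hγ.1
  letI := chOf H
  haveI := mf_chOf H
  have aβ : ∀ {c : Chart 2 X} {x}, Adp J c → x ∈ c.source → Anti (pb c.symm β (c x)) :=
    fun hc hx => anti_pb hc hx (Jf_anti_B hdef _)
  have aγ : ∀ {c : Chart 2 X} {x}, Adp J c → x ∈ c.source → Anti (pb c.symm γ (c x)) :=
    fun hc hx => anti_pb hc hx (Jf_anti_C hdef _)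
  have iα : ∀ {c : Chart 2 X} {x}, Adp J c → x ∈ c.source → Inv (pb c.symm α (c x)) := by
    intro c x hc hx
    refine inv_of_perp (aβ hc hx) (aγ hc hx) ?_ ?_ ?_
    · rw [cV_pb hx, cV_pb hx, dsc_pull]
      exact mul_ne_zero (pow_ne_zero _ (det_frM hc.toSmC hx)) (triPos_iff.1 h x).dsc_pos.ne'
    · rw [Q_pb μ (ax_ne hμ x) hx, h3, mul_zero]
    · rw [Q_pb μ (ax_ne hμ x) hx, h4, mul_zero]
  have cα : ∀ {c : Chart 2 X} {x}, Adp J c → x ∈ c.source → ContDiffAt ℝ ∞ (pb c.symm α) (c x) :=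
    fun {c x} hc hx => (P247M.contDiffOn_pb c.open_target hc.sms hα.1).contDiffAt
      (c.open_target.mem_nhds (c.map_source hx))
  have hK : IsKahler (n := 2) (X := X) fun c z => herm (pb c.symm α z) :=
    { smooth := fun c x hc i j => herm_cd (cα hc.1 hc.2) i j
      posDef := fun c x hc => (herm_posDef_iff (iα hc.1 hc.2)).2
        ((tames_pb hc.1 hc.2 α).2 (Jf_tames' hdef x))
      change := fun c c' x hc hc' => by
        have a1 : Adp J c := hc.1
        have a2 : Adp J c' := hc'.1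
        have e : jacM c c' x = Matrix.of fun p i =>
            fderiv ℝ (fun z => c' (c.symm z)) (c x) (Pi.single i 1) p := by
          ext p i
          exact dz_lin ((trn_cd a1.toSmC a2.toSmC hc.2 hc'.2).differentiableAt (by simp))
            (trn_I a1 a2 hc.2 hc'.2) p i
        rw [e, pb_trn a1.toSmC a2.toSmC hc.2 hc'.2]
        exact herm_comp (iα a2 hc'.2) _ (trn_I a1 a2 hc.2 hc'.2)
      closed := fun c x hc i j k => closed_herm ((cα hc.1 hc.2).differentiableAt (by simp))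
        (ev_target hc.2 (P := fun z => Inv (pb c.symm α z)) fun y hy => iα hc.1 hy)
        (P247M.extDeriv_pb_sc c.open_target (Adp.toSmC hc.1).sms hα (c.map_source hc.2)) i j k }
  have pα : ∀ x, 0 < HS.quot μ α α x := fun x => by
    have := h x 1 0 0 (Or.inl one_ne_zero)
    linarith
  have pβ : ∀ x, 0 < HS.quot μ β β x := fun x => by
    have := h x 0 1 0 (Or.inr (Or.inl one_ne_zero))
    linarith
  obtain ⟨u, κ, hu, hp, he⟩ := P299.H835.yau (n := 2) (X := X) _ hK
    (fun x => Real.log (HS.quot μ β β x) - Real.log (HS.quot μ α α x)) (fun c x hc => by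
      have a1 := cd_symm (Adp.toSmC hc.1) (P247M.smF_quot hμ hβ.1 hβ.1 x) hc.2
      have a2 := cd_symm (Adp.toSmC hc.1) (P247M.smF_quot hμ hα.1 hα.1 x) hc.2
      exact (a1.log (pβ _).ne').sub (a2.log (pα _).ne'))
  have hu' : ∀ x, SmF u x := fun x => by
    obtain ⟨c, hc, hx⟩ := H x
    exact smF_of_symm hc.toSmC hx (hu c x ⟨hc, hx⟩)
  have sη := P247M.smooth_iff.1 (smooth_dcX hJ hu')
  set θ : HS.Form X 2 := hs (dF (rf (dcX J u))) with hθ
  have sθ : HS.Smooth θ := P247M.smooth_iff.2 (P247M.smAt_dF' sη)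
  have eθ : HS.Exact θ := P247M.exact_iff.2 ⟨_, sη, rfl⟩
  have key : ∀ {c : Chart 2 X} {x}, Adp J c → x ∈ c.source →
      Inv (pb c.symm (fun x => α x + θ x) (c x)) ∧
      herm (pb c.symm (fun x => α x + θ x) (c x)) =
        addH (fun c z => herm (pb c.symm α z)) u c (c x) := by
    intro c x hc hx
    have a1 := cd_symm hc.toSmC (hu' x) hx
    rw [P247M.pb_add, hθ, pb_ddc hJ hc hu' hx, herm_add, herm_ddc a1]
    exact ⟨(iα hc hx).add (inv_ddc a1), rfl⟩
  have zero : ∀ δ : HS.Form X 2, (∀ {c : Chart 2 X} {x}, Adp J c → x ∈ c.source →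
      Anti (pb c.symm δ (c x))) → ∀ x, HS.quot μ (fun x => α x + θ x) δ x = 0 := by
    intro δ hδ x
    obtain ⟨c, hc, hx⟩ := H x
    have := Q_inv_anti' (key hc hx).1 (hδ hc hx)
    rw [Q_pb μ (ax_ne hμ x) hx] at this
    exact (mul_eq_zero.1 this).resolve_left (mul_ne_zero (det_frM hc.toSmC hx) (ax_ne hμ x))
  refine ⟨θ, ⟨sθ, exact_closed eθ⟩, eθ, fun x => ?_, zero β aβ, zero γ aγ, Real.exp κ, fun x => ?_⟩
  · obtain ⟨c, hc, hx⟩ := H x
    have a1 := hp c x ⟨hc, hx⟩
    rw [← (key hc hx).2, herm_posDef_iff (key hc hx).1] at a1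
    exact (tames_pb hc hx _).1 a1
  · obtain ⟨c, hc, hx⟩ := H x
    have a1 := (Complex.pos_iff.1 (hp c x ⟨hc, hx⟩).det_pos).1
    have a2 := (Complex.pos_iff.1 (hK.posDef c x ⟨hc, hx⟩).det_pos).1
    have a3 := he c x ⟨hc, hx⟩
    rw [← (key hc hx).2, det_herm (key hc hx).1, Q_pb μ (ax_ne hμ x) hx] at a1 a3
    rw [det_herm (iα hc hx), Q_pb μ (ax_ne hμ x) hx] at a2 a3
    set m := det4 (frM c x) * ax μ x HS.bas
    set q := HS.quot μ (fun x => α x + θ x) (fun x => α x + θ x) x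
    have b1 := pα x
    have b2 := pβ x
    have hm : 0 < m := by
      by_contra hcon
      push Not at hcon
      have := mul_nonpos_of_nonpos_of_nonneg hcon b1.le
      linarith
    have hq : 0 < q := by
      by_contra hcon
      push Not at hcon
      have := mul_nonpos_of_nonneg_of_nonpos hm.le hcon
      linarith
    rw [Real.log_div (mul_pos hm hq).ne' (by norm_num), Real.log_div (mul_pos hm b1).ne' (by norm_num),
      Real.log_mul hm.ne' hq.ne', Real.log_mul hm.ne' b1.ne'] at a3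
    have a4 : Real.log q = κ + Real.log (HS.quot μ β β x) := by linarith
    rw [← Real.exp_log hq, a4, Real.exp_add, Real.exp_log b2]

end Vale.Agent.P247F
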