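import Vale.Agent.P247F.HK5
import Vale.Agent.P247F.Free
import Vale.Agent.P247.SCY.EXM4
import Vale.Agent.P247.SCY.SoftK3
import Vale.Agent.P247.SCY.CE2
import Vale.Agent.P247.SCY.OHom
import Vale.Agent.P247.SCY.KLg
import Vale.Agent.P247.SCY.KLAV
import Vale.Agent.P247.SCY.P3V
import Vale.Agent.P247.SCY.HOM

/-!
# P247, block F: the hyperkaehler end
-/

set_option linter.all false

open scoped BigOperators ContDiff Topology Manifold
open Set Filter MeasureTheory

noncomputable section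

namespace Vale.Agent.P247F
open Vale.Agent.P247.SCY Vale.Agent.P247.SCY.HS
open Vale.Agent.P247X hiding Coh IntPair

theorem exists_norm {N : ℝ} (h : 0 < N) : ∃ f : ℝ, f ≠ 0 ∧ f * f * N = 1 := by
  have h1 := Real.sqrt_pos.2 h
  refine ⟨(Real.sqrt N)⁻¹, inv_ne_zero h1.ne', ?_⟩
  rw [← mul_inv, Real.mul_self_sqrt h.le, inv_mul_cancel₀ h.ne']

/-- Gram-Schmidt for a positive definite `3 × 3` matrix -/
theorem gs3 {A B C D E F : ℝ} (h : ∀ a b c : ℝ, (a ≠ 0 ∨ b ≠ 0 ∨ c ≠ 0) →
    0 < a ^ 2 * A + b ^ 2 * B + c ^ 2 * C + 2 * a * b * D + 2 * a * c * E + 2 * b * c * F) :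
    ∃ a b c d e f : ℝ, a ≠ 0 ∧ c ≠ 0 ∧ f ≠ 0 ∧ a * a * B = 1 ∧
      b * b * B + c * c * C + 2 * b * c * F = 1 ∧ b * B + c * F = 0 ∧
      f * D + d * B + e * F = 0 ∧ f * E + d * F + e * C = 0 ∧
      f * f * A + d * d * B + e * e * C + 2 * f * d * D + 2 * f * e * E + 2 * d * e * F = 1 := by
  have hB : 0 < B := by have := h 0 1 0 (by simp); linarith
  have hΔ : 0 < B * C - F ^ 2 := by
    have := h 0 (-F) B (Or.inr (Or.inr hB.ne'))
    have h2 : 0 < B * (B * C - F ^ 2) := by nlinarith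
    exact (mul_pos_iff_of_pos_left hB).1 h2
  obtain ⟨a, ha, ha'⟩ := exists_norm hB
  obtain ⟨c, hc, hc'⟩ := exists_norm (h 0 (-F / B) 1 (by simp))
  set Δ := B * C - F ^ 2 with hΔ'
  obtain ⟨f, hf, hf'⟩ := exists_norm (h 1 ((F * E - C * D) / Δ) ((F * D - B * E) / Δ) (by simp))
  refine ⟨a, c * (-F / B), c, f * ((F * E - C * D) / Δ), f * ((F * D - B * E) / Δ), f, ha, hc, hf,
    ha', by linear_combination hc', by field_simp; ring, ?_, ?_, by linear_combination hf'⟩
  · field_simp
    rw [hΔ']; ring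
  · field_simp
    rw [hΔ']; ring

section
variable {X : Type} [TopologicalSpace X] [ChartedSpace E4 X] {μ : Form X 4}

/-- constant linear combinations of three forms -/
def l3 (α β γ : Form X 2) (a b c : ℝ) : Form X 2 := fun x => a • α x + b • β x + c • γ x

theorem quot_l3_left (α β γ δ : Form X 2) (a b c : ℝ) (x : X) :
    quot μ (l3 α β γ a b c) δ x = a * quot μ α δ x + b * quot μ β δ x + c * quot μ γ δ x := by
  have h1 := quot_add_smul μ (fun x => a • α x + b • β x) γ δ c x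
  have h2 := quot_add_smul μ (fun x => a • α x) β δ b x
  have h3 : quot μ (fun x => a • α x) δ x = a * quot μ α δ x := by
    rw [quot_cx, quot_cx, cx_smul, P204.T4.Q_smul_left]; ring
  rw [← h3, ← h2, ← h1]
  rfl

theorem quot_l3 (α β γ : Form X 2) (a b c a' b' c' : ℝ) (x : X) :
    quot μ (l3 α β γ a b c) (l3 α β γ a' b' c') x =
      a * a' * quot μ α α x + b * b' * quot μ β β x + c * c' * quot μ γ γ x +
      (a * b' + b * a') * quot μ α β x + (a * c' + c * a') * quot μ α γ x +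
      (b * c' + c * b') * quot μ β γ x := by
  rw [quot_l3_left, quot_comm μ α, quot_comm μ β, quot_comm μ γ, quot_l3_left, quot_l3_left,
    quot_l3_left, quot_comm μ β α, quot_comm μ γ α, quot_comm μ γ β]
  ring

theorem triPos_l3 {α β γ : Form X 2} (h : TriPos μ α β γ) {p q t r s u : ℝ} (hp : p ≠ 0)
    (hr : r ≠ 0) (hu : u ≠ 0) :
    TriPos μ (l3 α β γ p q t) (l3 α β γ 0 r 0) (l3 α β γ 0 s u) := by
  intro x a b c habc
  have := h x (a * p) (a * q + b * r + c * s) (a * t + c * u) (by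
    by_cases ha : a = 0
    · by_cases hc : c = 0
      · have hb : b ≠ 0 := by tauto
        right; left
        simp [ha, hc, hb, hr]
      · right; right
        simp [ha, hc, hu]
    · left
      exact mul_ne_zero ha hp)
  simp only [quot_l3]
  linarith

end

section
variable {X : Type} [Cl4 X] {μ : Form X 4}

theorem sc_l3 {α β γ : Form X 2} (hα : SC α) (hβ : SC β) (hγ : SC γ) (a b c : ℝ) :
    SC (l3 α β γ a b c) :=
  sc_add (sc_add (sc_smul hα a) (sc_smul hβ b)) (sc_smul hγ c)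

theorem pair_l3 (hμ : Volume μ) (hfin : vol μ univ ≠ ⊤) {α β γ : Form X 2} (hα : Smooth α)
    (hβ : Smooth β) (hγ : Smooth γ) (a b c a' b' c' : ℝ) :
    pair μ (l3 α β γ a b c) (l3 α β γ a' b' c') =
      a * a' * pair μ α α + b * b' * pair μ β β + c * c' * pair μ γ γ +
      (a * b' + b * a') * pair μ α β + (a * c' + c * a') * pair μ α γ +
      (b * c' + c * b') * pair μ β γ := by
  have i1 := (integrable_quot hμ hfin hα hα).const_mul (a * a')
  have i2 := (integrable_quot hμ hfin hβ hβ).const_mul (b * b')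
  have i3 := (integrable_quot hμ hfin hγ hγ).const_mul (c * c')
  have i4 := (integrable_quot hμ hfin hα hβ).const_mul (a * b' + b * a')
  have i5 := (integrable_quot hμ hfin hα hγ).const_mul (a * c' + c * a')
  have i6 := (integrable_quot hμ hfin hβ hγ).const_mul (b * c' + c * b')
  unfold pair
  simp only [quot_l3]
  rw [integral_add _ i6, integral_add _ i5, integral_add _ i4, integral_add _ i3,
    integral_add i1 i2]
  · simp only [integral_const_mul]
  · exact i1.add i2
  · exact (i1.add i2).add i3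
  · exact ((i1.add i2).add i3).add i4
  · exact (((i1.add i2).add i3).add i4).add i5

/-- the normalised case -/
theorem hk_norm (hμ : Volume μ) (hb : BPlusLe3 μ) {α β γ : Form X 2} (h : TriPos μ α β γ)
    (hα : SC α) (hβ : SC β) (hγ : SC γ) (pαα : pair μ α α = 1) (pββ : pair μ β β = 1)
    (pγγ : pair μ γ γ = 1) (pαβ : pair μ α β = 0) (pαγ : pair μ α γ = 0) (pβγ : pair μ β γ = 0)
    (h1 : ∀ x, quot μ β β x = quot μ γ γ x) (h2 : ∀ x, quot μ β γ x = 0) :
    ∃ θ : Form X 2, SC θ ∧ Exact θ ∧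
      (∀ s ∈ Icc (0 : ℝ) 1, TriPos μ (fun x => α x + s • θ x) β γ) ∧
      (∀ x, quot μ (fun x => α x + θ x) β x = 0) ∧ (∀ x, quot μ (fun x => α x + θ x) γ x = 0) ∧
      ∃ κ : ℝ, ∀ x, quot μ (fun x => α x + θ x) (fun x => α x + θ x) x = κ * quot μ β β x := by
  have hcl : ClosedExStatement := closedEx_of fun X _ _ _ _ _ M P =>
    ⟨P.Y.δ0, P.Y.δ0_pos, le_rfl, fun δ h0 h1 c hc => homForm M P h0 h1 hc⟩
  have pos : ∀ x, 0 < quot μ β β x := fun x => by
    have := h x 0 1 0 (by simp)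
    linarith
  obtain ⟨θ1, s1, c1, e1, -, q1, -, x1, x2⟩ := stepV (softK_of hom (kl_of p3v av)) hcl hμ hb hβ.1 pββ
    pos hα.1 hα.2 hβ.1 hβ.2 hγ.1 hγ.2 h pαα pββ pγγ pαβ pαγ pβγ one_pos
  have t1 : TriPos μ (fun x => α x + θ1 x) β γ := by
    have := q1 1 (by norm_num)
    simpa only [one_smul] using this
  have T1 := tames_of_seg (μ := μ) (α := α) (α' := fun x => α x + θ1 x) (β := β) (γ := γ)
    fun r hr => by
      have e : (fun x => α x + r • (α x + θ1 x - α x)) = fun x => α x + r • θ1 x := by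
        funext x; rw [add_sub_cancel_left]
      rw [e]; exact q1 r hr
  obtain ⟨θ2, s2, e2, T2, y1, y2, κ, y3⟩ := yau_step hμ t1 (sc_add hα ⟨s1, c1⟩) hβ hγ h1 h2 x1 x2
  rw [Jf_eq_of_tames h T1] at T2
  have e : (fun x => α x + (θ1 x + θ2 x)) = fun x => α x + θ1 x + θ2 x := by
    funext x; rw [add_assoc]
  refine ⟨fun x => θ1 x + θ2 x, sc_add ⟨s1, c1⟩ s2, exact_add e1 e2, fun s hs => ?_, ?_, ?_, κ, ?_⟩
  · have := seg_of_tames h T2 hs
    simpa only [add_assoc, add_sub_cancel_left] using this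
  · rw [e]; exact y1
  · rw [e]; exact y2
  · rw [e]; exact y3

end

theorem hkend : HKEND_statement := by
  intro X _ μ hμ hb w ⟨hw, a0, b0, c0, g, hg⟩
  have hfin := vol_fin hμ hw
  have S : ∀ i, SC (w i) := fun i => ⟨hw.smooth i, hw.closed i⟩
  have PL := fun a b c a' b' c' => pair_l3 hμ hfin (hw.smooth 2) (hw.smooth 0) (hw.smooth 1)
    a b c a' b' c'
  obtain ⟨a, b, c, d, e, f, ha, hc, hf, g1, g2, g3, g4, g5, g6⟩ := gs3 (A := pair μ (w 2) (w 2))
    (B := pair μ (w 0) (w 0)) (C := pair μ (w 1) (w 1)) (D := pair μ (w 2) (w 0))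
    (E := pair μ (w 2) (w 1)) (F := pair μ (w 0) (w 1)) (by
      intro a b c habc
      have s := (sc_l3 (S 2) (S 0) (S 1) a b c).1
      have := integral_pos_of_pos hμ hw (integrable_quot hμ hfin s s) fun x => by
        have := hyper_tri hw x a b c habc
        rw [quot_l3]
        linarith
      have h2 := PL a b c a b c
      unfold pair at h2 ⊢
      linarith)
  set I := ∫ x, g x ∂(vol μ) with hI
  have k1 : pair μ (w 0) (w 0) = I * a0 := by
    unfold pair; simp only [fun x => (hg x).1]; rw [integral_mul_const]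
  have k2 : pair μ (w 0) (w 1) = I * b0 := by
    unfold pair; simp only [fun x => (hg x).2.1]; rw [integral_mul_const]
  have k3 : pair μ (w 1) (w 1) = I * c0 := by
    unfold pair; simp only [fun x => (hg x).2.2]; rw [integral_mul_const]
  have hI0 : I ≠ 0 := by
    intro h0
    rw [k1, h0] at g1
    simp at g1
  obtain ⟨θ, sθ, eθ, q, x1, x2, κ, x3⟩ := hk_norm hμ hb (triPos_l3 (hyper_tri hw) (q := d) (t := e)
    (s := b) hf ha hc) (sc_l3 (S 2) (S 0) (S 1) _ _ _) (sc_l3 (S 2) (S 0) (S 1) _ _ _)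
    (sc_l3 (S 2) (S 0) (S 1) _ _ _) (by rw [PL]; linear_combination g6)
    (by rw [PL]; linear_combination g1) (by rw [PL]; linear_combination g2)
    (by rw [PL]; linear_combination a * g4) (by rw [PL]; linear_combination b * g4 + c * g5)
    (by rw [PL]; linear_combination a * g3)
    (fun x => by
      rw [quot_l3, quot_l3, (hg x).1, (hg x).2.1, (hg x).2.2]
      rw [k1] at g1
      rw [k1, k2, k3] at g2
      apply mul_left_cancel₀ hI0
      linear_combination g x * g1 - g x * g2)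
    (fun x => by
      rw [quot_l3, (hg x).1, (hg x).2.1, (hg x).2.2]
      rw [k1, k2] at g3
      apply mul_left_cancel₀ hI0
      linear_combination a * g x * g3)
  set α := l3 (w 2) (w 0) (w 1) f d e with hα
  set β := l3 (w 2) (w 0) (w 1) 0 a 0 with hβ
  set γ := l3 (w 2) (w 0) (w 1) 0 b c with hγ
  have hγγ : ∀ x, quot μ γ γ x = quot μ β β x := fun x => by
    rw [hβ, hγ, quot_l3, quot_l3, (hg x).1, (hg x).2.1, (hg x).2.2]
    rw [k1] at g1
    rw [k1, k2, k3] at g2
    apply mul_left_cancel₀ hI0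
    linear_combination g x * g2 - g x * g1
  have hβγ : ∀ x, quot μ β γ x = 0 := fun x => by
    rw [hβ, hγ, quot_l3, (hg x).1, (hg x).2.1, (hg x).2.2]
    rw [k1, k2] at g3
    apply mul_left_cancel₀ hI0
    linear_combination a * g x * g3
  have i0 : ∀ δ, w 0 = l3 δ β γ 0 a⁻¹ 0 := fun δ => by
    funext x
    simp only [l3, hβ, hγ]
    match_scalars <;> field_simp <;> ring
  have i1 : ∀ δ, w 1 = l3 δ β γ 0 (-(b / (a * c))) c⁻¹ := fun δ => by
    funext x
    simp only [l3, hβ, hγ]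
    match_scalars <;> field_simp <;> ring
  have i2 : ∀ s : ℝ, (fun x => w 2 x + s • f⁻¹ • θ x) =
      l3 (fun x => α x + s • θ x) β γ f⁻¹ ((e * b / (f * c) - d / f) / a) (-(e / (f * c))) :=
    fun s => by
    funext x
    simp only [l3, hα, hβ, hγ]
    match_scalars <;> field_simp <;> ring
  have tp : ∀ s ∈ Icc (0 : ℝ) 1, TriPos μ (fun x => w 2 x + s • f⁻¹ • θ x) (w 0) (w 1) := by
    intro s hs
    rw [i2 s, i0 fun x => α x + s • θ x, i1 fun x => α x + s • θ x]
    exact triPos_l3 (q s hs) (inv_ne_zero hf) (inv_ne_zero ha) (inv_ne_zero hc)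
  set τ : Form X 2 := fun x => w 2 x + f⁻¹ • θ x with hτ
  have sτ : SC τ := sc_add (S 2) (sc_smul sθ _)
  have mv : MvAt μ 2 w ![w 0, w 1, τ] := mvAt_of_tames hw rfl rfl sτ.1 sτ.2
    (tames_of_seg (μ := μ) fun r hr => by
      simpa only [hτ, Matrix.cons_val, add_sub_cancel_left] using tp r hr)
  refine ⟨_, Ch0.single mv (coh_of_mvAt mv.2 ?_), mv.1.hv, ?_⟩
  · simpa only [hτ, Matrix.cons_val, add_sub_cancel_left] using exact_smul eθ f⁻¹
  · let p : Fin 3 → ℝ := ![0, 0, f⁻¹]
    let r : Fin 3 → ℝ := ![a⁻¹, -(b / (a * c)), (e * b / (f * c) - d / f) / a]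
    let u : Fin 3 → ℝ := ![0, c⁻¹, -(e / (f * c))]
    have ev : ∀ i, ![w 0, w 1, τ] i = l3 (fun x => α x + θ x) β γ (p i) (r i) (u i) := by
      intro i
      fin_cases i
      · exact i0 _
      · exact i1 _
      · have := i2 1
        simp only [one_smul] at this
        exact this
    refine ⟨fun i j => p i * p j * κ + r i * r j + u i * u j, fun x => quot μ β β x,
      fun x i j => ?_⟩
    rw [ev, ev, quot_l3, x1, x2, x3, hγγ, hβγ]
    ring

theorem free (root : ROOT_statement) (nm : NM_statement) (irr : IRR_statement)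
    (emb : EMB_statement) : FREE_statement :=
  free_of root nm irr emb hkend

end Vale.Agent.P247F
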