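import Vale.Agent.P247F.Alg

/-!
# P247, block F: elementary properties of moves
-/

set_option linter.all false

open scoped BigOperators ContDiff Topology Manifold
open Set

namespace Vale.Agent.P247F
open Vale.Agent.P204.Mfd (Tames EndField)
open Vale.Agent.P247.SCY Vale.Agent.P247.SCY.HS

variable {X : Type} [TopologicalSpace X] [ChartedSpace E4 X] {μ : Form X 4}

theorem smooth_sub {k : ℕ} {α β : Form X k} (h : Smooth α) (h' : Smooth β) :
    Smooth (fun x => α x - β x) := by
  have e : (fun x => α x - β x) = fun x => α x + (-1 : ℝ) • β x := by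
    funext x; module
  rw [e]
  exact smooth_add h (smooth_smul h' _)

theorem closed_sub {k : ℕ} {α β : Form X k} (h : Smooth α) (h' : Smooth β) (c : Closed α)
    (c' : Closed β) : Closed (fun x => α x - β x) := by
  have e : (fun x => α x - β x) = fun x => α x + (-1 : ℝ) • β x := by
    funext x; module
  rw [e]
  exact closed_add h (smooth_smul h' _) c (closed_smul c' _)

theorem smooth_seg {α β : Form X 2} (h : Smooth α) (h' : Smooth β) (s : ℝ) :
    Smooth (fun x => α x + s • (β x - α x)) :=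
  smooth_add h (smooth_smul (smooth_sub h' h) s)

theorem closed_seg {α β : Form X 2} (h : Smooth α) (h' : Smooth β) (c : Closed α) (c' : Closed β)
    (s : ℝ) : Closed (fun x => α x + s • (β x - α x)) :=
  closed_add h (smooth_smul (smooth_sub h' h) s) c (closed_smul (closed_sub h' h c' c) s)

theorem lin_zero (w v : Fin 3 → Form X 2) : lin w v 0 = w := by
  funext i x; simp only [lin, zero_smul, add_zero]

theorem lin_one (w v : Fin 3 → Form X 2) : lin w v 1 = v := by
  funext i x; simp only [lin, one_smul, add_sub_cancel]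

theorem lin_symm (w v : Fin 3 → Form X 2) (s : ℝ) : lin v w s = lin w v (1 - s) := by
  funext i x
  simp only [lin]
  module

theorem lin_lin (w v : Fin 3 → Form X 2) (s t r : ℝ) :
    lin (lin w v s) (lin w v t) r = lin w v (s + r * (t - s)) := by
  funext i x
  simp only [lin]
  module

theorem lin_of_eq {w v : Fin 3 → Form X 2} {j : Fin 3} (h : v j = w j) (s : ℝ) :
    lin w v s j = w j := by
  funext x
  simp only [lin, h, sub_self, smul_zero, add_zero]

theorem Seg.hyper {w v : Fin 3 → Form X 2} (h : Seg μ w v) {s : ℝ} (hs : s ∈ Icc (0 : ℝ) 1) :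
    Hypersymplectic μ (lin w v s) :=
  ⟨fun i => smooth_seg (h.hw.smooth i) (h.hv.smooth i) s, fun i =>
    closed_seg (h.hw.smooth i) (h.hv.smooth i) (h.hw.closed i) (h.hv.closed i) s, h.pos s hs⟩

theorem Seg.symm {w v : Fin 3 → Form X 2} (h : Seg μ w v) : Seg μ v w :=
  ⟨h.hv, h.hw, fun s hs x => by
    rw [lin_symm]; exact h.pos _ ⟨by linarith [hs.2], by linarith [hs.1]⟩ x⟩

theorem Seg.refl {w : Fin 3 → Form X 2} (h : Hypersymplectic μ w) : Seg μ w w :=
  ⟨h, h, fun s _ x => by
    have : lin w w s = w := funext fun j => lin_of_eq rfl s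
    rw [this]; exact h.posDef x⟩

theorem MvAt.symm {k : Fin 3} {w v : Fin 3 → Form X 2} (h : MvAt μ k w v) : MvAt μ k v w :=
  ⟨h.1.symm, fun j hj => (h.2 j hj).symm⟩

theorem Mv.symm {w v : Fin 3 → Form X 2} (h : Mv μ w v) : Mv μ v w := by
  obtain ⟨k, hk⟩ := h
  exact ⟨k, hk.symm⟩

theorem Ch.symm {w v : Fin 3 → Form X 2} (h : Ch μ w v) : Ch μ v w := by
  induction h with
  | refl => exact Relation.ReflTransGen.refl
  | tail _ h2 ih => exact Relation.ReflTransGen.head h2.symm ih

theorem Ch.trans {u w v : Fin 3 → Form X 2} (h : Ch μ u w) (h' : Ch μ w v) : Ch μ u v :=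
  Relation.ReflTransGen.trans h h'

theorem Ch.hyper {w v : Fin 3 → Form X 2} (h : Ch μ w v) (hw : Hypersymplectic μ w) :
    Hypersymplectic μ v := by
  induction h with
  | refl => exact hw
  | tail _ h2 _ => obtain ⟨k, hk⟩ := h2; exact hk.1.hv

/-! ### permutations of the slots -/

theorem Qm_perm (σ : Equiv.Perm (Fin 3)) (w : Fin 3 → Form X 2) (x : X) :
    Qm μ (fun i => w (σ i)) x = (Qm μ w x).submatrix σ σ := rfl

theorem hyper_perm (σ : Equiv.Perm (Fin 3)) {w : Fin 3 → Form X 2} (h : Hypersymplectic μ w) :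
    Hypersymplectic μ (fun i => w (σ i)) :=
  ⟨fun i => h.smooth _, fun i => h.closed _, fun x => by
    rw [Qm_perm]; exact (h.posDef x).submatrix σ.injective⟩

theorem Seg.perm (σ : Equiv.Perm (Fin 3)) {w v : Fin 3 → Form X 2} (h : Seg μ w v) :
    Seg μ (fun i => w (σ i)) (fun i => v (σ i)) :=
  ⟨hyper_perm σ h.hw, hyper_perm σ h.hv, fun s hs x =>
    (hyper_perm σ (h.hyper hs)).posDef x⟩

theorem MvAt.perm (σ : Equiv.Perm (Fin 3)) {k : Fin 3} {w v : Fin 3 → Form X 2}
    (h : MvAt μ (σ k) w v) : MvAt μ k (fun i => w (σ i)) (fun i => v (σ i)) :=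
  ⟨h.1.perm σ, fun j hj => h.2 _ (σ.injective.ne hj)⟩

theorem MvAt.of_perm (σ : Equiv.Perm (Fin 3)) {k : Fin 3} {w v : Fin 3 → Form X 2}
    (h : MvAt μ k (fun i => w (σ i)) v) : MvAt μ (σ k) w (fun i => v (σ.symm i)) := by
  have h1 := MvAt.perm σ.symm (k := σ k) (w := fun i => w (σ i)) (v := v) (by simpa using h)
  simpa using h1

/-! ### moves in the last slot and taming -/

theorem hyper_tri {w : Fin 3 → Form X 2} (h : Hypersymplectic μ w) :
    TriPos μ (w 2) (w 0) (w 1) := (tri_of_posDef h.posDef).rot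

theorem posDef_tri {w : Fin 3 → Form X 2} (h : TriPos μ (w 2) (w 0) (w 1)) (x : X) :
    (Qm μ w x).PosDef := posDef_of_tri h.rot.rot x

theorem MvAt.tames {w v : Fin 3 → Form X 2} (h : MvAt μ 2 w v) :
    Tames (v 2) (Jf (w 2) (w 0) (w 1)) := by
  apply tames_of_seg (μ := μ)
  intro r hr
  have h1 := hyper_tri (h.1.hyper hr)
  rwa [lin_of_eq (h.2 0 (by decide)), lin_of_eq (h.2 1 (by decide))] at h1

theorem mvAt_of_tames {w v : Fin 3 → Form X 2} (hw : Hypersymplectic μ w) (h0 : v 0 = w 0)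
    (h1 : v 1 = w 1) (hs : Smooth (v 2)) (hc : Closed (v 2))
    (hT : Tames (v 2) (Jf (w 2) (w 0) (w 1))) : MvAt μ 2 w v := by
  have hne : ∀ j : Fin 3, j ≠ 2 → v j = w j := by
    intro j hj
    fin_cases j
    · exact h0
    · exact h1
    · exact absurd rfl hj
  have hpos : ∀ s ∈ Icc (0 : ℝ) 1, ∀ x, (Qm μ (lin w v s) x).PosDef := by
    intro s hs'
    apply posDef_tri
    rw [lin_of_eq h0, lin_of_eq h1]
    exact seg_of_tames (hyper_tri hw) hT hs'
  refine ⟨⟨hw, ⟨fun i => ?_, fun i => ?_, fun x => ?_⟩, hpos⟩, hne⟩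
  · by_cases hi : i = 2
    · rw [hi]; exact hs
    · rw [hne i hi]; exact hw.smooth i
  · by_cases hi : i = 2
    · rw [hi]; exact hc
    · rw [hne i hi]; exact hw.closed i
  · have := hpos 1 (by simp) x
    rwa [lin_one] at this

theorem MvAt.Jf_eq {w v : Fin 3 → Form X 2} (h : MvAt μ 2 w v) :
    Jf (v 2) (v 0) (v 1) = Jf (w 2) (w 0) (w 1) := by
  rw [h.2 0 (by decide), h.2 1 (by decide)]
  exact Jf_eq_of_tames (hyper_tri h.1.hw) h.tames

theorem MvAt.trans2 {u w v : Fin 3 → Form X 2} (h : MvAt μ 2 u w) (h' : MvAt μ 2 w v) :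
    MvAt μ 2 u v := by
  refine mvAt_of_tames h.1.hw ((h'.2 0 (by decide)).trans (h.2 0 (by decide)))
    ((h'.2 1 (by decide)).trans (h.2 1 (by decide))) (h'.1.hv.smooth 2) (h'.1.hv.closed 2) ?_
  rw [← h.Jf_eq]
  exact h'.tames

theorem MvAt.trans {k : Fin 3} {u w v : Fin 3 → Form X 2} (h : MvAt μ k u w)
    (h' : MvAt μ k w v) : MvAt μ k u v := by
  set σ : Equiv.Perm (Fin 3) := Equiv.swap k 2 with hσ
  have e : σ 2 = k := by simp [hσ]
  rw [← e] at h h'
  have h1 := ((h.perm σ).trans2 (h'.perm σ)).of_perm σ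
  rw [e] at h1
  simpa using h1

/-! ### classes -/

variable [IsManifold (𝓡 4) ∞ X] [CompactSpace X] [T2Space X]

theorem exact_refl (α : Form X 2) : Exact fun x => α x - α x := by
  simp only [sub_self]
  exact exact_zero

theorem exact_symm {α β : Form X 2} (h : Exact fun x => α x - β x) : Exact fun x => β x - α x := by
  have e : (fun x => β x - α x) = fun x => (-1 : ℝ) • (α x - β x) := by
    funext x; module
  rw [e]
  exact exact_smul h _

theorem exact_trans {α β γ : Form X 2} (h : Exact fun x => α x - β x)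
    (h' : Exact fun x => β x - γ x) : Exact fun x => α x - γ x := by
  have e : (fun x => α x - γ x) = fun x => (α x - β x) + (β x - γ x) := by
    funext x; abel
  rw [e]
  exact exact_add h h'

theorem Coh.refl (w : Fin 3 → Form X 2) : Coh w w := fun i => exact_refl _

theorem Coh.symm {w v : Fin 3 → Form X 2} (h : Coh w v) : Coh v w := fun i => exact_symm (h i)

theorem Coh.trans {u w v : Fin 3 → Form X 2} (h : Coh u w) (h' : Coh w v) : Coh u v :=
  fun i => exact_trans (h' i) (h i)

theorem Coh.lin {w v : Fin 3 → Form X 2} (h : Coh w v) (s t : ℝ) :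
    Coh (lin w v s) (lin w v t) := by
  intro i
  have e : (fun x => P247F.lin w v t i x - P247F.lin w v s i x) =
      fun x => (t - s) • (v i x - w i x) := by
    funext x
    simp only [P247F.lin]
    module
  rw [e]
  exact exact_smul (h i) _

theorem coh_of_mvAt {k : Fin 3} {w v : Fin 3 → Form X 2} (h : ∀ j, j ≠ k → v j = w j)
    (he : Exact fun x => v k x - w k x) : Coh w v := by
  intro i
  by_cases hi : i = k
  · rw [hi]; exact he
  · rw [h i hi]; exact exact_refl _

theorem Ch0.symm {w v : Fin 3 → Form X 2} (h : Ch0 μ w v) : Ch0 μ v w := by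
  induction h with
  | refl => exact Relation.ReflTransGen.refl
  | tail _ h2 ih => exact Relation.ReflTransGen.head ⟨h2.1.symm, h2.2.symm⟩ ih

theorem Ch0.trans {u w v : Fin 3 → Form X 2} (h : Ch0 μ u w) (h' : Ch0 μ w v) : Ch0 μ u v :=
  Relation.ReflTransGen.trans h h'

theorem Ch0.single {k : Fin 3} {w v : Fin 3 → Form X 2} (h : MvAt μ k w v) (hc : Coh w v) :
    Ch0 μ w v := Relation.ReflTransGen.single ⟨⟨k, h⟩, hc⟩

theorem Ch0.coh {w v : Fin 3 → Form X 2} (h : Ch0 μ w v) : Coh w v := by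
  induction h with
  | refl => exact Coh.refl _
  | tail _ h2 ih => exact ih.trans h2.2

theorem Ch0.ch {w v : Fin 3 → Form X 2} (h : Ch0 μ w v) : Ch μ w v := by
  induction h with
  | refl => exact Relation.ReflTransGen.refl
  | tail _ h2 ih => exact Relation.ReflTransGen.tail ih h2.1

/-- chains in fixed classes are deformations -/
theorem Ch0.deformation {w v : Fin 3 → Form X 2} (hw : Hypersymplectic μ w) (h : Ch0 μ w v) :
    ∃ W, Deformation μ w W ∧ W 1 = v := by
  induction h with
  | refl =>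
    refine ⟨fun _ => w, ⟨fun i e he => ?_, fun _ _ => hw, rfl, fun _ i => exact_refl _⟩, rfl⟩
    exact (hw.smooth i e he).comp contDiff_snd.contDiffOn (fun p hp => hp.2)
  | @tail b c _ h2 ih =>
    obtain ⟨W, hW, h1⟩ := ih
    obtain ⟨⟨k, hk⟩, hc⟩ := h2
    obtain ⟨W', hW', h1'⟩ := deformation_append hW (θ := fun i x => c i x - b i x)
      (fun i => ⟨smooth_sub (hk.1.hv.smooth i) (hk.1.hw.smooth i),
        closed_sub (hk.1.hv.smooth i) (hk.1.hw.smooth i) (hk.1.hv.closed i) (hk.1.hw.closed i),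
        hc i⟩) (fun s hs x => by rw [h1]; exact hk.1.pos s hs x)
    refine ⟨W', hW', ?_⟩
    rw [h1', h1]
    funext i x
    simp only [add_sub_cancel]

end Vale.Agent.P247F
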