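import Vale.Agent.P247F.Pair
import Vale.Agent.P247F.HB0

/-!
# P247, block F: the soft Nakai-Moishezon criterion
-/

set_option linter.all false

open scoped BigOperators ContDiff Topology Manifold
open Set Filter MeasureTheory

namespace Vale.Agent.P247F
open Vale.Agent.P204.Mfd hiding bil
open Vale.Agent.P247.SCY Vale.Agent.P247.SCY.HS
open Vale.Agent.P247X (Cl4 Cont SC lc Marking PosT PCur IsCls LinC EndF Jw PosF Root Sph)
open Vale.Agent.P290.H726
open Vale.Agent.P290Z.Lat (IsK3L cs)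

section
variable {X : Type} [TopologicalSpace X] [ChartedSpace HS.E4 X] {μ : Form X 4}

theorem cont_add {α β : Form X 2} (h : Cont α) (h' : Cont β) : Cont fun x => α x + β x := by
  intro e he
  rw [loc_add']
  exact (h e he).add (h' e he)

theorem cont_smul {α : Form X 2} (h : Cont α) (c : ℝ) : Cont fun x => c • α x := by
  intro e he
  rw [loc_smul']
  exact (h e he).const_smul c

theorem cont_zero : Cont (fun _ => 0 : Form X 2) := by
  intro e he
  have : loc e (fun _ => 0 : Form X 2) = fun _ => 0 := by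
    funext y; ext v; rfl
  rw [this]
  exact continuousOn_const

/-- continuous forms -/
def ContS (X : Type) [TopologicalSpace X] [ChartedSpace HS.E4 X] : Submodule ℝ (Form X 2) where
  carrier := {φ | Cont φ}
  add_mem' := fun h h' => cont_add h h'
  zero_mem' := cont_zero
  smul_mem' := fun c _ h => cont_smul h c

/-- nonnegative forms -/
def NN (J : EndF X) (φ : Form X 2) : Prop := ∀ x v, 0 ≤ φ x ![v, J x v]

theorem nn_of_tames {J : EndF X} {φ : Form X 2} (h : Tames φ J) : NN J φ := by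
  intro x v
  by_cases hv : v = 0
  · exact le_of_eq ((φ x).map_coord_zero 0 (by simpa using hv)).symm
  · exact (h x v hv).le

theorem anti_zero {w : Fin 3 → Form X 2} (hw : Hypersymplectic μ w) (j : Fin 3) (hj : j ≠ 2)
    (x : X) (v : TangentSpace (𝓡 4) x) : w j x ![v, Jw w x v] = 0 := by
  have h := triPos_iff.1 (hyper_tri hw) x
  have key : ∀ (j : Fin 3), j ≠ 2 → ∀ v : HS.E4,
      omv (w j) x v (Jat (Jf (w 2) (w 0) (w 1)) x v) = 0 := by
    intro j hj v
    rw [omv_eq, Jat_Jf, toE.symm_apply_apply]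
    fin_cases j
    · exact ev_anti (isCx_tam h) (pull_tam_B h) _
    · exact ev_anti (isCx_tam h) (pull_tam_C h) _
    · exact absurd rfl hj
  exact key j hj v

theorem pcur_anti {w : Fin 3 → Form X 2} (hw : Hypersymplectic μ w) {T : Form X 2 → ℝ}
    (hT : PCur (Jw w) T) (j : Fin 3) (hj : j ≠ 2) : T (w j) = 0 := by
  have c := cont_of_smooth (hw.smooth j)
  have h1 := hT.pos (w j) c fun x v => (anti_zero hw j hj x v).ge
  have h2 := hT.pos (fun x => (-1 : ℝ) • w j x) (cont_smul c _) fun x v => by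
    show 0 ≤ (-1 : ℝ) * w j x ![v, Jw w x v]
    rw [anti_zero hw j hj x v, mul_zero]
  rw [hT.smul _ _ c] at h2
  linarith

theorem pcur_smul {J : EndF X} {T : Form X 2 → ℝ} (hT : PCur J T) {c : ℝ} (hc : 0 ≤ c) :
    PCur J fun φ => c * T φ where
  add := fun φ ψ h h' => by rw [hT.add φ ψ h h', mul_add]
  smul := fun d φ h => by rw [hT.smul d φ h]; ring
  closed := fun φ h h' => by rw [hT.closed φ h h', mul_zero]
  pos := fun φ h h' => mul_nonneg hc (hT.pos φ h h')

end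

section
variable {X : Type} [Cl4 X] {μ : Form X 4} (hμ : Volume μ) {w : Fin 3 → Form X 2}
  (hw : Hypersymplectic μ w)
include hμ hw

theorem tames_near {φ : Form X 2} (hφ : Cont φ) :
    ∃ ε : ℝ, 0 < ε ∧ Tames (fun x => w 2 x + ε • φ x) (Jw w) := by
  have h1 := qm_eventually hμ (K := Unit) (P := ℝ)
    (W := fun z => ![w 0, w 1, fun x => w 2 x + z.1 • φ x]) (fun i => by
      fin_cases i
      · exact famC_const (cont_of_smooth (hw.smooth 0))
      · exact famC_const (cont_of_smooth (hw.smooth 1))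
      · exact (famC_const (cont_of_smooth (hw.smooth 2))).add
          ((famC_const hφ).smul continuous_fst)) (p0 := 0) (fun _ x => by
      have : (![w 0, w 1, fun x => w 2 x + (0 : ℝ) • φ x] : Fin 3 → Form X 2) = w := by
        funext i
        fin_cases i
        · rfl
        · rfl
        · funext x
          show w 2 x + (0 : ℝ) • φ x = w 2 x
          module
      simp only [this]
      exact hw.posDef x)
  obtain ⟨δ, hδ, h2⟩ := Metric.eventually_nhds_iff.1 h1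
  refine ⟨δ / 2, half_pos hδ, tames_of_seg (μ := μ) fun r hr => ?_⟩
  have h3 := h2 (y := r * (δ / 2)) (by
    rw [Real.dist_eq, sub_zero, abs_of_nonneg (mul_nonneg hr.1 (half_pos hδ).le)]
    nlinarith [hr.2]) ()
  have h4 := (tri_of_posDef h3).rot
  have e : (fun x => w 2 x + r • (w 2 x + (δ / 2) • φ x - w 2 x)) =
      fun x => w 2 x + (r * (δ / 2)) • φ x := by
    funext x; module
  rw [e]
  exact h4

/-- an extremal closed positive current which is nonpositive on `α` -/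
theorem exists_extreme_cur {α : Form X 2} (sα : Smooth α)
    (no : ∀ τ, Smooth τ → P247X.Coh τ α → ¬ Tames τ (Jw w)) :
    ∃ T, PCur (Jw w) T ∧ T (w 2) = 1 ∧ T α ≤ 0 ∧ ∀ S, PCur (Jw w) S →
      PosF (Jw w) (fun φ => T φ - S φ) → ∀ φ, Cont φ → S φ = S (w 2) * T φ := by
  classical
  let E : Submodule ℝ (ContS X) :=
    { carrier := {e | Smooth (e : Form X 2) ∧ Exact (e : Form X 2)}
      add_mem' := fun h h' => ⟨smooth_add h.1 h'.1, exact_add h.2 h'.2⟩
      zero_mem' := ⟨(sc_zero ⟨hw.smooth 0, hw.closed 0⟩).1, exact_zero⟩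
      smul_mem' := fun c _ h => ⟨smooth_smul h.1 c, exact_smul h.2 c⟩ }
  have hT2 : Tames (w 2) (Jw w) := Jf_tames (defAt_of_triPos (hyper_tri hw))
  obtain ⟨T, ⟨t1, t2, t3, t4, t5⟩, hα, hext⟩ := exists_extreme (V := ContS X)
    (P := {φ | NN (Jw w) (φ : Form X 2)}) (E := E) (om := ⟨w 2, cont_of_smooth (hw.smooth 2)⟩)
    (α := ⟨α, cont_of_smooth sα⟩) (fun x v => le_rfl)
    (fun φ h ψ h' x v => add_nonneg (h x v) (h' x v))
    (fun c hc φ h x v => mul_nonneg hc (h x v)) (nn_of_tames hT2) (fun y => by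
      obtain ⟨ε, hε, h⟩ := tames_near hμ hw y.2
      refine ⟨ε⁻¹, fun x v => ?_⟩
      have h1 : 0 ≤ w 2 x ![v, Jw w x v] + ε * (y : Form X 2) x ![v, Jw w x v] :=
        nn_of_tames h x v
      show 0 ≤ ε⁻¹ * w 2 x ![v, Jw w x v] + (y : Form X 2) x ![v, Jw w x v]
      have h2 := mul_nonneg (inv_pos.2 hε).le h1
      rwa [mul_add, ← mul_assoc, inv_mul_cancel₀ hε.ne', one_mul] at h2) (fun e he c hc h => by
      refine no (fun x => α x + (e : Form X 2) x) (smooth_add sα he.1) ?_ fun x v hv => ?_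
      · show Exact fun x => α x + (e : Form X 2) x - α x
        simp only [add_sub_cancel_left]
        exact he.2
      · have h1 : 0 ≤ α x ![v, Jw w x v] + (e : Form X 2) x ![v, Jw w x v] -
            c * w 2 x ![v, Jw w x v] := h x v
        have h2 := mul_pos hc (hT2 x v hv)
        show 0 < α x ![v, Jw w x v] + (e : Form X 2) x ![v, Jw w x v]
        linarith)
  let T' : Form X 2 → ℝ := fun φ => if h : Cont φ then T ⟨φ, h⟩ else 0
  have hT' : ∀ φ (h : Cont φ), T' φ = T ⟨φ, h⟩ := fun φ h => dif_pos h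
  refine ⟨T', ⟨⟨fun φ ψ h h' => ?_, fun c φ h => ?_⟩, fun φ h h' => ?_, fun φ h h' => ?_⟩, ?_, ?_,
    fun S hS hle φ hφ => ?_⟩
  · rw [hT' _ (cont_add h h'), hT' _ h, hT' _ h']
    exact t1 ⟨φ, h⟩ ⟨ψ, h'⟩
  · rw [hT' _ (cont_smul h c), hT' _ h]
    exact t2 c ⟨φ, h⟩
  · rw [hT' _ (cont_of_smooth h)]
    exact t4 _ ⟨h, h'⟩
  · rw [hT' _ h]
    exact t3 _ h'
  · rw [hT' _ (cont_of_smooth (hw.smooth 2))]
    exact t5
  · rw [hT' _ (cont_of_smooth sα)]
    exact hα
  · rw [hT' _ hφ]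
    refine hext (fun y => S y) (fun x y => hS.add _ _ x.2 y.2) (fun c x => hS.smul c _ x.2)
      (fun y hy => hS.pos _ y.2 hy) (fun e he => hS.closed _ he.1 he.2) (fun y hy => ?_) ⟨φ, hφ⟩
    have := hle _ y.2 hy
    simp only [hT' _ y.2] at this
    linarith

theorem neg_cls (M : Marking μ) {k : Fin 3 → Fin 22 → ℝ} (hk : M.Rep w k) {a : Fin 22 → ℝ}
    (ha : ∀ s ∈ Icc (0 : ℝ) 1, PosT M.G ![k 0, k 1, (1 - s) • k 2 + s • a])
    {R : Form X 2 → ℝ} (hR : PCur (Jw w) R) (h2 : 0 < R (w 2)) (h3 : R (lc M.c a) ≤ 0)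
    {v : Fin 22 → ℝ} (hv : IsCls μ R (lc M.c v)) : bil M.G v v < 0 := by
  have e : ∀ j, bil M.G v (k j) = R (w j) := fun j => by
    rw [hv.2 _ ⟨hw.smooth j, hw.closed j⟩, pair_lc_coh hμ hw M _ _ (hw.smooth j) (hk j)]
  have ea : bil M.G v a = R (lc M.c a) := by rw [hv.2 _ (sc_lc M a), pair_lc hμ hw]
  have hd : 0 < R (w 2) - R (lc M.c a) := by linarith
  set s := R (w 2) / (R (w 2) - R (lc M.c a)) with hs
  refine neg_of_perp M.k3 (ha s ⟨div_nonneg h2.le hd.le, (div_le_one hd).2 (by linarith)⟩)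
    (fun h0 => ?_) fun i => ?_
  · have := e 2
    rw [h0, bil_zero_left] at this
    linarith
  · fin_cases i
    · exact (e 0).trans (pcur_anti hw hR 0 (by decide))
    · exact (e 1).trans (pcur_anti hw hR 1 (by decide))
    · show bil M.G v ((1 - s) • k 2 + s • a) = 0
      rw [bil_add_right, bil_smul_right, bil_smul_right, e 2, ea, hs]
      field_simp
      ring

end

open P247X in
/-- an irreducible curve which is nonpositive on the class is a sphere -/
theorem nm_end (irr : IRR_statement) (emb : EMB_statement) (adj : ADJ_statement) {X : Type}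
    [Cl4 X] {μ : Form X 4} (hμ : Volume μ) (M : Marking μ) {w : Fin 3 → Form X 2}
    (hw : Hypersymplectic μ w) {k : Fin 3 → Fin 22 → ℝ} (hk : M.Rep w k) {a : Fin 22 → ℝ}
    (ha : ∀ s ∈ Icc (0 : ℝ) 1, PosT M.G ![k 0, k 1, (1 - s) • k 2 + s • a]) (K : Irr (Jw w))
    (h4 : K.T (lc M.c a) ≤ 0) : ∃ (S : Sph (Jw w)) (ρ : Fin 22 → ℤ), Root M.G ρ ∧
      IsCls μ S.int (lc M.c (cs ℝ ρ)) ∧ bil M.G (cs ℝ ρ) a ≤ 0 := by
  obtain ⟨k1, k2, -, k4, k5⟩ := irr X μ hμ w hw K
  obtain ⟨v, hv, hint⟩ := exists_cls hμ hw M k1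
  obtain ⟨r, rfl⟩ := hint fun j => by
    obtain ⟨L, hL⟩ := M.int (Pi.single j 1)
    rw [← lc_single M j, ← hL]
    exact k4 L
  have h5 := neg_cls hμ hw M hk ha k1 k2 h4 hv
  obtain ⟨a1, a2, -⟩ := adj X μ hμ w hw K _ hv
  have e1 : K.T (lc M.c (cs ℝ r)) = ((bil M.G r r : ℤ) : ℝ) := by
    rw [hv.2 _ (sc_lc M _), pair_lc hμ hw]
    exact bil_intCast_real _ _ _
  have e2 : bil M.G (cs ℝ r) (cs ℝ r) = ((bil M.G r r : ℤ) : ℝ) := bil_intCast_real _ _ _
  have hr : bil M.G r r = -2 := by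
    rw [e1] at a1
    rw [e2] at h5
    have b1 : (-2 : ℤ) ≤ bil M.G r r := by exact_mod_cast a1
    have b2 : bil M.G r r < 0 := by exact_mod_cast h5
    obtain ⟨q, hq⟩ := M.k3.even r
    omega
  obtain ⟨Sp, hSp⟩ := a2 (by rw [e1, hr]; norm_num)
  obtain ⟨K', hK1, -, hK2⟩ := (emb X μ hμ w hw).1 Sp
  refine ⟨Sp, r, hr, ⟨hv.1, fun φ hφ => ?_⟩, ?_⟩
  · rw [← hK2 φ (cont_of_smooth hφ.1), k5 K' (hK1.trans hSp) φ (cont_of_smooth hφ.1), hv.2 φ hφ]
  · rw [← pair_lc hμ hw, ← hv.2 _ (sc_lc M a)]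
    exact h4

theorem move_of_tames {X : Type} [Cl4 X] {μ : Form X 4} {w : Fin 3 → Form X 2}
    (hw : Hypersymplectic μ w) {α τ : Form X 2} (hα : SC α) (s : Smooth τ) (c : P247X.Coh τ α)
    (t : Tames τ (Jw w)) : P247X.Move μ w ![w 0, w 1, τ] := by
  refine ⟨2, mvAt_of_tames hw rfl rfl s ?_ t⟩
  have := closed_add hα.1 (smooth_sub s hα.1) hα.2 (exact_closed c)
  simp only [add_sub_cancel] at this
  exact this

open P247X in
theorem nm (siua : SIUA_statement) (lsx : LSX_statement) (dec : DEC_statement)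
    (irr : IRR_statement) (emb : EMB_statement) (adj : ADJ_statement) : NM_statement := by
  intro X _ μ h0 M w hw k hk a ha
  have hμ := h0.vol
  by_cases hex : ∃ τ, Smooth τ ∧ P247X.Coh τ (lc M.c a) ∧ Tames τ (Jw w)
  · obtain ⟨τ, s, c, t⟩ := hex
    exact Or.inl ⟨τ, c, move_of_tames hw (sc_lc M a) s c t⟩
  right
  obtain ⟨T, hT, t1, t2, hext⟩ := exists_extreme_cur hμ hw (sc_lc M a).1
    fun τ s c t => hex ⟨τ, s, c, t⟩
  obtain ⟨t, ht, -⟩ := exists_cls hμ hw M hT
  have h1 := neg_cls hμ hw M hk ha hT (by rw [t1]; exact one_pos) t2 ht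
  obtain ⟨c, S, hc, hS, ⟨x0, hx0⟩, hle⟩ := siua X μ hμ w hw T hT _ ht (by rwa [pair_lc hμ hw])
  obtain ⟨m, K, n, hn, hsupp, hsum⟩ := dec X μ hμ w hw S hS.toPCur (lsx X μ hμ w hw S hS)
  rw [hsupp] at hx0
  obtain ⟨i, -⟩ := mem_iUnion.1 hx0
  obtain ⟨k1, k2, -⟩ := irr X μ hμ w hw (K i)
  have hni : (0 : ℝ) < n i := by exact_mod_cast hn i
  have hcn : 0 < c * n i := mul_pos hc hni
  have h3 := hext (fun φ => c * n i * (K i).T φ) (pcur_smul k1 hcn.le) (fun φ hφ hp => by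
    have a1 := hle φ hφ hp
    have a2 : (n i : ℝ) * (K i).T φ ≤ ∑ j, (n j : ℝ) * (K j).T φ :=
      Finset.single_le_sum (f := fun j => (n j : ℝ) * (K j).T φ) (fun j _ =>
        mul_nonneg (Nat.cast_nonneg _) ((irr X μ hμ w hw (K j)).1.pos φ hφ hp)) (Finset.mem_univ i)
    simp only [hsum φ hφ] at a1
    show 0 ≤ T φ - c * n i * (K i).T φ
    nlinarith)
  refine nm_end irr emb adj hμ M hw hk ha (K i) ?_
  have a1 := h3 _ (cont_of_smooth (sc_lc M a).1)
  have a2 := mul_nonpos_of_nonneg_of_nonpos (mul_pos hcn k2).le t2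
  by_contra hcon
  push Not at hcon
  have := mul_pos hcn hcon
  linarith

end Vale.Agent.P247F
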