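import Vale.Agent.P247F.NM
import Vale.Agent.P247N.Sta

/-!
# P247, block F: the soft Nakai-Moishezon criterion from the layer cake decomposition
-/

set_option linter.all false

open scoped BigOperators ContDiff Topology Manifold
open Set

namespace Vale.Agent.P247F
open Vale.Agent.P204.Mfd hiding bil
open Vale.Agent.P247.SCY Vale.Agent.P247.SCY.HS
open Vale.Agent.P247X hiding Coh IntPair

theorem nmC (siuc : P247N.SIUC_statement) (lsx : LSX_statement) (dec : DEC_statement)
    (irr : IRR_statement) (emb : EMB_statement) (adj : ADJ_statement) : NM_statement := by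
  intro X _ μ h0 M w hw k hk a ha
  have hμ := h0.vol
  by_cases hex : ∃ τ, Smooth τ ∧ P247X.Coh τ (lc M.c a) ∧ Tames τ (Jw w)
  · obtain ⟨τ, s, c, t⟩ := hex
    exact Or.inl ⟨τ, c, move_of_tames hw (sc_lc M a) s c t⟩
  right
  obtain ⟨T, hT, t1, t2, -⟩ := exists_extreme_cur hμ hw (sc_lc M a).1
    fun τ s c t => hex ⟨τ, s, c, t⟩
  have ca := cont_of_smooth (sc_lc M a).1
  rcases siuc X μ hμ w hw T hT (by rw [t1]; exact one_pos) _ ca t2 with
    ⟨T0, p1, p2, p3, p4⟩ | ⟨S, hS, s1, s2⟩
  · exfalso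
    obtain ⟨t, ht, -⟩ := exists_cls hμ hw M p1
    have h1 := neg_cls hμ hw M hk ha p1 p2 p3 ht
    have h2 := p4 _ ht
    rw [pair_lc hμ hw] at h2
    linarith
  obtain ⟨m, K, n, hn, -, hsum⟩ := dec X μ hμ w hw S hS.toPCur (lsx X μ hμ w hw S hS)
  have hex2 : ∃ i, (K i).T (lc M.c a) ≤ 0 := by
    by_contra hcon
    push Not at hcon
    rcases isEmpty_or_nonempty (Fin m) with he | he
    · rw [hsum _ (cont_of_smooth (hw.smooth 2)), Finset.univ_eq_empty, Finset.sum_empty] at s1
      exact lt_irrefl _ s1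
    · rw [hsum _ ca] at s2
      have := Finset.sum_pos (s := Finset.univ) (f := fun i => (n i : ℝ) * (K i).T (lc M.c a))
        (fun i _ => mul_pos (by exact_mod_cast hn i) (hcon i)) Finset.univ_nonempty
      linarith
  obtain ⟨i, hi⟩ := hex2
  exact nm_end irr emb adj hμ M hw hk ha (K i) hi

end Vale.Agent.P247F
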