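import Vale.Agent.P247F.Chain
import Vale.Agent.P247.SCY.FX2

/-!
# P247, block F: the intersection form and markings
-/

set_option linter.all false

open scoped BigOperators ContDiff Topology Manifold
open Set Filter MeasureTheory

namespace Vale.Agent.P247F
open Vale.Agent.P204.Mfd hiding bil
open Vale.Agent.P247.SCY Vale.Agent.P247.SCY.HS
open Vale.Agent.P247X (Cl4 Cont SC lc Marking PosT PCur IsCls LinC EndF)
open Vale.Agent.P290.H726
open Vale.Agent.P290Z.Lat (IsK3L cs)

/-- vectors orthogonal to a positive triple are negative -/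
theorem neg_of_perp {G : Matrix (Fin 22) (Fin 22) ℤ} (hG : IsK3L G) {p : Fin 3 → Fin 22 → ℝ}
    (hp : PosT G p) {t : Fin 22 → ℝ} (ht : t ≠ 0) (h : ∀ i, bil G t (p i) = 0) : bil G t t < 0 := by
  by_contra hcon
  push Not at hcon
  obtain ⟨w, -, hw⟩ := hG.sig
  let f : (Fin 4 → ℝ) →ₗ[ℝ] (Fin 3 → ℝ) :=
    { toFun := fun a j => a 0 * bil G (p 0) (w j) + a 1 * bil G (p 1) (w j) +
        a 2 * bil G (p 2) (w j) + a 3 * bil G t (w j)
      map_add' := fun a b => by funext j; simp only [Pi.add_apply]; ring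
      map_smul' := fun c a => by
        funext j; simp only [Pi.smul_apply, smul_eq_mul, RingHom.id_apply]; ring }
  obtain ⟨a, ha, ha0⟩ := (Submodule.ne_bot_iff _).1
    (LinearMap.ker_ne_bot_of_finrank_lt (f := f) (by simp))
  have hq : ∀ b : Fin 3 → ℝ, star b ⬝ᵥ (Matrix.of fun i j => bil G (p i) (p j)).mulVec b =
      bil G (b 0 • p 0 + b 1 • p 1 + b 2 • p 2) (b 0 • p 0 + b 1 • p 1 + b 2 • p 2) := by
    intro b
    simp only [dotProduct, Matrix.mulVec, Fin.sum_univ_three, Matrix.of_apply, star_trivial,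
      bil_add_left, bil_add_right, bil_smul_left, bil_smul_right]
    ring
  set y := a 0 • p 0 + a 1 • p 1 + a 2 • p 2 with hy
  have hty : bil G t y = 0 := by
    simp only [hy, bil_add_right, bil_smul_right, h, mul_zero, add_zero]
  have hyt : bil G y t = 0 := by rw [bil_symm G hG.symm]; exact hty
  have hyy : 0 ≤ bil G y y := by
    have := hp.posSemidef.dotProduct_mulVec_nonneg ![a 0, a 1, a 2]
    rw [hq] at this
    exact this
  have hx : y + a 3 • t ≠ 0 := by
    intro h0
    have h1 : bil G (y + a 3 • t) y = 0 := by rw [h0, bil_zero_left]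
    rw [bil_add_left, bil_smul_left, hty, mul_zero, add_zero] at h1
    have h2 : (![a 0, a 1, a 2] : Fin 3 → ℝ) = 0 := by
      by_contra h3
      have := hp.dotProduct_mulVec_pos h3
      rw [hq] at this
      exact this.ne' h1
    have e0 : a 0 = 0 := congrFun h2 0
    have e1 : a 1 = 0 := congrFun h2 1
    have e2 : a 2 = 0 := congrFun h2 2
    have e3 : a 3 = 0 := by
      rw [hy, e0, e1, e2] at h0
      simp only [zero_smul, add_zero, zero_add, smul_eq_zero] at h0
      exact h0.resolve_right ht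
    apply ha0
    funext i
    fin_cases i
    · exact e0
    · exact e1
    · exact e2
    · exact e3
  have h4 := hw _ hx (fun j => by
    have := congrFun (LinearMap.mem_ker.1 ha) j
    simp only [hy, bil_add_left, bil_smul_left]
    exact this)
  clear_value y
  simp only [bil_add_left, bil_add_right, bil_smul_left, bil_smul_right, hty, hyt] at h4
  nlinarith [mul_nonneg (mul_self_nonneg (a 3)) hcon]

/-- solving `G v = b` -/
theorem exists_dual {G : Matrix (Fin 22) (Fin 22) ℤ} (hG : IsK3L G) (b : Fin 22 → ℝ) :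
    ∃ v : Fin 22 → ℝ, (∀ u, bil G v u = ∑ i, u i * b i) ∧
      ((∀ i, ∃ n : ℤ, b i = n) → ∃ r : Fin 22 → ℤ, v = cs ℝ r) := by
  have h1 : G⁻¹ * G = 1 := Matrix.nonsing_inv_mul G hG.unit
  refine ⟨fun i => ∑ k, b k * (G⁻¹ k i : ℝ), fun u => ?_, fun h => ?_⟩
  · have h2 : ∀ k j, ∑ i, (G⁻¹ k i : ℝ) * (G i j : ℝ) = if k = j then 1 else 0 := by
      intro k j
      have := congrFun (congrFun h1 k) j
      rw [Matrix.mul_apply, Matrix.one_apply] at this
      have h3 := congrArg (fun z : ℤ => (z : ℝ)) this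
      simp only [Int.cast_sum, Int.cast_mul, Int.cast_ite, Int.cast_one, Int.cast_zero] at h3
      exact h3
    unfold bil
    rw [Finset.sum_comm]
    refine Finset.sum_congr rfl fun j _ => ?_
    calc ∑ i, (G i j : ℝ) * (∑ k, b k * (G⁻¹ k i : ℝ)) * u j
        = ∑ k, b k * (∑ i, (G⁻¹ k i : ℝ) * (G i j : ℝ)) * u j := by
          simp only [Finset.mul_sum, Finset.sum_mul]
          rw [Finset.sum_comm]
          refine Finset.sum_congr rfl fun k _ => Finset.sum_congr rfl fun i _ => by ring
      _ = u j * b j := by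
          simp only [h2, mul_ite, mul_one, mul_zero, ite_mul, zero_mul, Finset.sum_ite_eq',
            Finset.mem_univ, if_true]
          ring
  · choose n hn using h
    refine ⟨fun i => ∑ k, n k * G⁻¹ k i, ?_⟩
    funext i
    simp only [cs, hn, Int.cast_sum, Int.cast_mul]

section
variable {X : Type} [Cl4 X] {μ : Form X 4}

theorem vol_fin (hμ : Volume μ) {w : Fin 3 → Form X 2} (hw : Hypersymplectic μ w) :
    vol μ univ ≠ ⊤ := by
  have hdef := defAt_of_triPos (tri_of_posDef hw.posDef)
  have hJ : AlmostComplex (Jf (w 0) (w 1) (w 2)) :=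
    Jf_almostComplex hdef (hw.smooth 0) (hw.smooth 1) (hw.smooth 2)
  have hT := Jf_tames hdef
  obtain ⟨A⟩ := exists_finAtlas hJ
  rw [vol_muA A hJ (hw.smooth 0) (hw.closed 0) hT hμ.smooth]
  haveI := muA_finite A hJ (hw.smooth 0) (hw.closed 0) hT
  obtain ⟨C, hC⟩ := isCompact_univ.exists_bound_of_continuousOn
    (continuous_hx A hJ (hw.smooth 0) hT hμ.smooth).continuousOn
  rw [withDensity_apply _ MeasurableSet.univ, Measure.restrict_univ]
  refine ne_top_of_le_ne_top ?_ (lintegral_mono (g := fun _ => ENNReal.ofReal C) fun x =>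
    ENNReal.ofReal_le_ofReal (hC x (mem_univ x)))
  rw [lintegral_const]
  exact ENNReal.mul_ne_top ENNReal.ofReal_ne_top (measure_ne_top _ _)

theorem vol_pos (hμ : Volume μ) {w : Fin 3 → Form X 2} (hw : Hypersymplectic μ w) :
    0 < vol μ univ := by
  obtain ⟨x⟩ : Nonempty X := inferInstance
  obtain ⟨p, -, -⟩ := exists_par x (ContinuousLinearEquiv.refl ℝ P204.T4.V4)
  refine lt_of_lt_of_le ?_ (measure_mono (subset_univ (range p.psi)))
  rw [vol_par hμ hw p p.isOpen_range.measurableSet subset_rfl, preimage_range,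
    Measure.restrict_univ, lintegral_pos_iff_support
      ((contDiff_m4 p hμ.smooth).continuous.abs.measurable).ennreal_ofReal]
  have : (Function.support fun y => ENNReal.ofReal |m4 p μ y|) = univ := by
    ext y
    simp only [Function.mem_support, ne_eq, ENNReal.ofReal_eq_zero, not_le, abs_pos, mem_univ,
      iff_true]
    exact m4_ne hμ p y
  rw [this]
  simp

theorem integral_pos_of_pos (hμ : Volume μ) {w : Fin 3 → Form X 2} (hw : Hypersymplectic μ w)
    {f : X → ℝ} (hf : Integrable f (vol μ)) (h : ∀ x, 0 < f x) : 0 < ∫ x, f x ∂(vol μ) := by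
  rw [integral_pos_iff_support_of_nonneg (fun x => (h x).le) hf]
  have : Function.support f = univ := by
    ext x; simp [(h x).ne']
  rw [this]
  exact vol_pos hμ hw

theorem pair_posDef (hμ : Volume μ) {w : Fin 3 → Form X 2} (hw : Hypersymplectic μ w) :
    (Matrix.of fun i j => pair μ (w i) (w j)).PosDef := by
  have hi := fun i j => integrable_quot hμ (vol_fin hμ hw) (hw.smooth i) (hw.smooth j)
  refine Matrix.PosDef.of_dotProduct_mulVec_pos ?_ fun v hv => ?_
  · ext i j
    simp only [Matrix.conjTranspose_apply, Matrix.of_apply, star_trivial]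
    exact P247.SCY.pair_comm _ _ _
  · have h1 : star v ⬝ᵥ (Matrix.of fun i j => pair μ (w i) (w j)).mulVec v =
        ∫ x, ∑ i, ∑ j, v i * (quot μ (w i) (w j) x * v j) ∂(vol μ) := by
      rw [integral_finset_sum _ fun i _ => integrable_finset_sum _ fun j _ =>
        ((hi i j).mul_const _).const_mul _]
      simp only [dotProduct, Matrix.mulVec, Matrix.of_apply, star_trivial, Finset.mul_sum]
      refine Finset.sum_congr rfl fun i _ => ?_
      rw [integral_finset_sum _ fun j _ => ((hi i j).mul_const _).const_mul _]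
      refine Finset.sum_congr rfl fun j _ => ?_
      rw [integral_const_mul, integral_mul_const]
      rfl
    rw [h1]
    refine integral_pos_of_pos hμ hw (integrable_finset_sum _ fun i _ =>
      integrable_finset_sum _ fun j _ => ((hi i j).mul_const _).const_mul _) fun x => ?_
    have h2 := (hw.posDef x).dotProduct_mulVec_pos hv
    simp only [dotProduct, Matrix.mulVec, Qm, Matrix.of_apply, star_trivial, Fin.sum_univ_three]
      at h2 ⊢
    linarith

theorem quot_smul_left (c : ℝ) (α β : Form X 2) (x : X) :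
    quot μ (fun x => c • α x) β x = c * quot μ α β x := by
  rw [quot_cx, quot_cx, cx_smul, P204.T4.Q_smul_left]; ring

theorem pair_smul_left (c : ℝ) (α β : Form X 2) :
    pair μ (fun x => c • α x) β = c * pair μ α β := by
  unfold pair
  simp only [quot_smul_left]
  exact integral_const_mul _ _

theorem sc_add {α β : Form X 2} (h : SC α) (h' : SC β) : SC fun x => α x + β x :=
  ⟨smooth_add h.1 h'.1, closed_add h.1 h'.1 h.2 h'.2⟩

theorem sc_smul {α : Form X 2} (h : SC α) (c : ℝ) : SC fun x => c • α x :=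
  ⟨smooth_smul h.1 c, closed_smul h.2 c⟩

theorem sc_sub {α β : Form X 2} (h : SC α) (h' : SC β) : SC fun x => α x - β x :=
  ⟨smooth_sub h.1 h'.1, closed_sub h.1 h'.1 h.2 h'.2⟩

theorem sc_zero {α : Form X 2} (h : SC α) : SC (fun _ => 0 : Form X 2) := by
  have := sc_sub h h
  simpa only [sub_self] using this

theorem sc_sum {n : ℕ} {c : Fin n → Form X 2} (hc : ∀ i, SC (c i)) (h0 : SC (fun _ => 0 : Form X 2))
    (s : Finset (Fin n)) : SC fun x => ∑ i ∈ s, c i x := by
  induction s using Finset.induction_on with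
  | empty => simpa only [Finset.sum_empty] using h0
  | insert a s ha ih =>
    simp only [Finset.sum_insert ha]
    exact sc_add (hc a) ih

theorem sc_lc (M : Marking μ) (v : Fin 22 → ℝ) : SC (lc M.c v) :=
  sc_sum (c := fun i x => v i • M.c i x) (fun i => sc_smul (M.sc i) _) (sc_zero (M.sc 0)) _

theorem lc_single (M : Marking μ) (i : Fin 22) : lc M.c (cs ℝ (Pi.single i 1)) = M.c i := by
  funext x
  unfold lc
  rw [Finset.sum_eq_single i]
  · simp only [cs, Pi.single_eq_same, Int.cast_one, one_smul]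
  · intro j _ hj
    simp only [cs, Pi.single_eq_of_ne hj, Int.cast_zero, zero_smul]
  · simp

theorem lc_seg (M : Marking μ) (u v : Fin 22 → ℝ) (s : ℝ) :
    lc M.c ((1 - s) • u + s • v) = fun x => lc M.c u x + s • (lc M.c v x - lc M.c u x) := by
  funext x
  simp only [lc, Pi.add_apply, Pi.smul_apply, smul_eq_mul, ← Finset.sum_sub_distrib,
    Finset.smul_sum, ← Finset.sum_add_distrib]
  refine Finset.sum_congr rfl fun i _ => ?_
  module

/-- linear functionals on combinations -/
theorem linC_lc {T : Form X 2 → ℝ} (hT : LinC T) (M : Marking μ) (v : Fin 22 → ℝ) :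
    T (lc M.c v) = ∑ i, v i * T (M.c i) := by
  have key : ∀ s : Finset (Fin 22), T (fun x => ∑ i ∈ s, v i • M.c i x) = ∑ i ∈ s, v i * T (M.c i) := by
    intro s
    induction s using Finset.induction_on with
    | empty =>
      simp only [Finset.sum_empty]
      have := hT.smul 0 (M.c 0) (cont_of_smooth (M.sc 0).1)
      simpa only [zero_smul, zero_mul] using this
    | insert a s ha ih =>
      simp only [Finset.sum_insert ha]
      rw [hT.add (fun x => v a • M.c a x) (fun x => ∑ i ∈ s, v i • M.c i x)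
        (cont_of_smooth (sc_smul (M.sc a) _).1) (cont_of_smooth (sc_sum
          (c := fun i x => v i • M.c i x) (fun i => sc_smul (M.sc i) _) (sc_zero (M.sc 0)) s).1),
        ih, hT.smul _ _ (cont_of_smooth (M.sc a).1)]
  exact key _

variable (hμ : Volume μ) {w : Fin 3 → Form X 2} (hw : Hypersymplectic μ w)
include hμ hw

theorem pair_sum_left {n : ℕ} {c : Fin n → Form X 2} (hc : ∀ i, SC (c i))
    (h0 : SC (fun _ => 0 : Form X 2)) {β : Form X 2} (hβ : Smooth β) (s : Finset (Fin n)) :
    pair μ (fun x => ∑ i ∈ s, c i x) β = ∑ i ∈ s, pair μ (c i) β := by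
  induction s using Finset.induction_on with
  | empty =>
    simp only [Finset.sum_empty]
    have := pair_smul_left (μ := μ) 0 β β
    simpa only [zero_smul, zero_mul] using this
  | insert a s ha ih =>
    simp only [Finset.sum_insert ha]
    rw [pair_add_left hμ (vol_fin hμ hw) (hc a).1 (sc_sum hc h0 s).1 hβ, ih]

theorem pair_lc_left (M : Marking μ) (v : Fin 22 → ℝ) {β : Form X 2} (hβ : Smooth β) :
    pair μ (lc M.c v) β = ∑ i, v i * pair μ (M.c i) β := by
  have := pair_sum_left hμ hw (c := fun i x => v i • M.c i x) (fun i => sc_smul (M.sc i) _)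
    (sc_zero (M.sc 0)) hβ Finset.univ
  simp only [pair_smul_left] at this
  exact this

theorem pair_lc (M : Marking μ) (u v : Fin 22 → ℝ) :
    pair μ (lc M.c u) (lc M.c v) = bil M.G u v := by
  rw [pair_lc_left hμ hw M u (sc_lc M v).1]
  unfold bil
  refine Finset.sum_congr rfl fun i _ => ?_
  rw [P247.SCY.pair_comm, pair_lc_left hμ hw M v (M.sc i).1, Finset.mul_sum]
  refine Finset.sum_congr rfl fun j _ => ?_
  rw [P247.SCY.pair_comm, M.gram]
  ring

theorem pair_coh {α β c : Form X 2} (sα : Smooth α) (sβ : Smooth β) (h : P247X.Coh α β)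
    (hc : SC c) : pair μ α c = pair μ β c := by
  have := pair_step hμ (vol_fin hμ hw) hw sβ (smooth_sub sα sβ) h hc.1 hc.2
  simpa only [add_sub_cancel] using this

theorem pair_lc_coh (M : Marking μ) (u v : Fin 22 → ℝ) {β : Form X 2} (sβ : Smooth β)
    (h : P247X.Coh β (lc M.c v)) : pair μ (lc M.c u) β = bil M.G u v := by
  rw [P247.SCY.pair_comm, pair_coh hμ hw sβ (sc_lc M v).1 h (sc_lc M u), P247.SCY.pair_comm, pair_lc hμ hw]

theorem posT_of_rep (M : Marking μ) {a : Fin 3 → Fin 22 → ℝ} (h : M.Rep w a) : PosT M.G a := by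
  have h1 := pair_posDef hμ hw
  have e : (Matrix.of fun i j => pair μ (w i) (w j)) = Matrix.of fun i j => bil M.G (a i) (a j) := by
    ext i j
    simp only [Matrix.of_apply]
    rw [pair_coh hμ hw (hw.smooth i) (sc_lc M _).1 (h i) ⟨hw.smooth j, hw.closed j⟩,
      pair_lc_coh hμ hw M _ _ (hw.smooth j) (h j)]
  rw [e] at h1
  exact h1

/-- the class of a closed current -/
theorem exists_cls (M : Marking μ) {J : EndF X} {T : Form X 2 → ℝ} (hT : PCur J T) :
    ∃ v : Fin 22 → ℝ, IsCls μ T (lc M.c v) ∧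
      ((∀ i, ∃ n : ℤ, T (M.c i) = n) → ∃ r : Fin 22 → ℤ, v = cs ℝ r) := by
  obtain ⟨v, hv, hv'⟩ := exists_dual M.k3 fun i => T (M.c i)
  refine ⟨v, ⟨sc_lc M v, fun φ hφ => ?_⟩, hv'⟩
  obtain ⟨u, hu⟩ := M.span φ hφ
  rw [pair_lc_coh hμ hw M v u hφ.1 hu, hv, ← linC_lc hT.toLinC M u]
  have h1 := hT.add (lc M.c u) (fun x => φ x - lc M.c u x) (cont_of_smooth (sc_lc M u).1)
    (cont_of_smooth (smooth_sub hφ.1 (sc_lc M u).1))
  rw [hT.closed _ (smooth_sub hφ.1 (sc_lc M u).1) hu, add_zero] at h1
  simpa only [add_sub_cancel] using h1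

end

end Vale.Agent.P247F
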